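import Mathlib

/-!
Lattice nets of the Euclidean unit ball.
-/

open Finset

namespace Vale.Agent.P166.Nested

theorem sum_exp_lattice {r : ℝ} (hr : 1 ≤ r) (n : ℕ) :
    ∑ j ∈ Icc (-(n : ℤ)) n, Real.exp (-((j : ℝ) / r) ^ 2) ≤ 6 * r := by
  set q := Real.exp (-(1 / r)) with hq
  have hr0 : 0 < r := by linarith
  have hq1 : q < 1 := Real.exp_lt_one_iff.2 (by have := one_div_pos.2 hr0; linarith)
  have hq0 : 0 ≤ q := (Real.exp_pos _).le
  have hgeo : ∀ l : ℕ, ∑ k ∈ range l, q ^ k ≤ r + 1 := fun l => by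
    refine (Summable.sum_le_tsum _ (fun k _ => pow_nonneg hq0 k)
      (summable_geometric_of_lt_one hq0 hq1)).trans ?_
    rw [tsum_geometric_of_lt_one hq0 hq1]
    have h1 := Real.add_one_le_exp (1 / r)
    have h2 : q * Real.exp (1 / r) = 1 := by rw [hq, ← Real.exp_add]; simp
    have h3 : q * (1 / r + 1) ≤ 1 := (mul_le_mul_of_nonneg_left h1 hq0).trans_eq h2
    have h4 : q * (1 + r) ≤ r := by
      have := mul_le_mul_of_nonneg_right h3 hr0.le
      field_simp at this
      linarith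
    rw [inv_le_iff_one_le_mul₀ (by linarith)]
    nlinarith
  have hpt : ∀ l : ℕ, Real.exp (-((l : ℝ) / r) ^ 2) ≤ Real.exp (1 / 4) * q ^ l := fun l => by
    rw [hq, ← Real.exp_nat_mul, ← Real.exp_add]
    refine Real.exp_le_exp.2 ?_
    have := sq_nonneg ((l : ℝ) / r - 1 / 2)
    have e : (l : ℝ) * -(1 / r) = -((l : ℝ) / r) := by ring
    rw [e]
    nlinarith
  have hle : ∑ j ∈ Icc (-(n : ℤ)) n, Real.exp (-((j : ℝ) / r) ^ 2)
      ≤ ∑ j ∈ (range (n + 1)).image (fun l : ℕ => (l : ℤ)) ∪ (range (n + 1)).image (fun l : ℕ => -(l : ℤ)),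
        Real.exp (-((j : ℝ) / r) ^ 2) := by
    refine sum_le_sum_of_subset_of_nonneg (fun j hj => ?_) fun _ _ _ => (Real.exp_pos _).le
    simp only [mem_Icc] at hj
    simp only [mem_union, mem_image, mem_range]
    rcases le_total 0 j with h | h
    · exact Or.inl ⟨j.toNat, by omega, by omega⟩
    · exact Or.inr ⟨(-j).toNat, by omega, by omega⟩
  have h14 : Real.exp (1 / 4) ≤ 3 / 2 := by
    have := Real.add_one_le_exp (-(1 / 4) : ℝ)
    have h : Real.exp (1 / 4) * Real.exp (-(1 / 4)) = 1 := by rw [← Real.exp_add]; simp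
    nlinarith [Real.exp_pos (1 / 4)]
  refine hle.trans ((le_of_le_of_eq (le_add_of_nonneg_right
    (sum_nonneg fun _ _ => (Real.exp_pos _).le)) sum_union_inter).trans ?_)
  rw [sum_image fun a _ b _ h => by simpa using h, sum_image fun a _ b _ h => by simpa using h]
  simp only [Int.cast_neg, Int.cast_natCast, neg_div, neg_sq]
  have h0 := (sum_le_sum fun l _ => hpt l).trans_eq (mul_sum (range (n + 1)) (fun k => q ^ k) _).symm
  have := h0.trans (mul_le_mul h14 (hgeo (n + 1)) (sum_nonneg fun k _ => pow_nonneg hq0 k) (by norm_num))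
  linarith

/-- A net of the unit ball of mesh `1/r`. -/
theorem exists_lattice_net (m : ℕ) {r : ℝ} (hr : 1 ≤ r) :
    ∃ T : Finset (Fin m → ℝ), (T.card : ℝ) ≤ (18 * r) ^ m ∧
      (∀ u ∈ T, ∑ a, u a ^ 2 ≤ 1) ∧
      ∀ z : Fin m → ℝ, ∑ a, z a ^ 2 ≤ 1 → ∃ u ∈ T, ∑ a, (z a - u a) ^ 2 ≤ 1 / r ^ 2 := by
  classical
  have hr0 : 0 < r := by linarith
  rcases Nat.eq_zero_or_pos m with rfl | hm
  · exact ⟨{0}, by simp, by simp, fun z _ => ⟨0, by simp, by simp; positivity⟩⟩
  have hm' : (0 : ℝ) < m := by exact_mod_cast hm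
  set c := r * √(m : ℝ) with hcdef
  have hc : 0 < c := mul_pos hr0 (Real.sqrt_pos.2 hm')
  have hc2 : c ^ 2 = r ^ 2 * m := by rw [hcdef, mul_pow, Real.sq_sqrt hm'.le]
  set n := ⌈c⌉₊
  set Q := (Fintype.piFinset fun _ : Fin m => Icc (-(n : ℤ)) n).filter
    fun j => ∑ a, ((j a : ℝ) / r) ^ 2 ≤ m
  refine ⟨Q.image fun j a => (j a : ℝ) / c, ?_, fun u hu => ?_, fun z hz => ?_⟩
  · refine (Nat.cast_le.2 card_image_le).trans ?_
    calc (Q.card : ℝ) = ∑ _j ∈ Q, (1 : ℝ) := by simp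
      _ ≤ ∑ j ∈ Q, Real.exp m * ∏ a, Real.exp (-((j a : ℝ) / r) ^ 2) := sum_le_sum fun j hj => by
          rw [← Real.exp_sum, ← Real.exp_add, sum_neg_distrib]
          refine Real.one_le_exp ?_
          linarith [(mem_filter.1 hj).2]
      _ ≤ ∑ j ∈ Fintype.piFinset fun _ : Fin m => Icc (-(n : ℤ)) n,
            Real.exp m * ∏ a, Real.exp (-((j a : ℝ) / r) ^ 2) :=
          sum_le_sum_of_subset_of_nonneg (filter_subset _ _) fun _ _ _ => by positivity
      _ ≤ Real.exp m * (6 * r) ^ m := by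
          rw [← mul_sum, ← prod_univ_sum (fun _ : Fin m => Icc (-(n : ℤ)) n)
            fun _ j => Real.exp (-((j : ℝ) / r) ^ 2), prod_const, card_univ, Fintype.card_fin]
          exact mul_le_mul_of_nonneg_left (pow_le_pow_left₀ (sum_nonneg fun _ _ => (Real.exp_pos _).le)
            (sum_exp_lattice hr n) m) (Real.exp_pos _).le
      _ ≤ _ := by
          rw [show Real.exp (m : ℝ) = Real.exp 1 ^ m by rw [← Real.exp_nat_mul, mul_one], ← mul_pow]
          refine pow_le_pow_left₀ (by positivity) ?_ m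
          nlinarith [Real.exp_one_lt_d9]
  · obtain ⟨j, hj, rfl⟩ := mem_image.1 hu
    have h := (mem_filter.1 hj).2
    simp only [div_pow, ← Finset.sum_div] at h ⊢
    rw [div_le_iff₀ (by positivity)] at h
    rw [div_le_iff₀ (by positivity), one_mul, hc2]
    linarith
  · set j : Fin m → ℤ := fun a => if 0 ≤ z a then ⌊c * z a⌋ else ⌈c * z a⌉
    have hj : ∀ a, |(j a : ℝ)| ≤ |c * z a| ∧ |c * z a - j a| ≤ 1 := fun a => by
      simp only [j]
      split_ifs with hx
      · have hx' : 0 ≤ c * z a := mul_nonneg hc.le hx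
        have h1 := Int.floor_le (c * z a)
        have h2 := Int.lt_floor_add_one (c * z a)
        have h0 : (0 : ℝ) ≤ ⌊c * z a⌋ := by exact_mod_cast Int.floor_nonneg.2 hx'
        rw [abs_of_nonneg h0, abs_of_nonneg hx', abs_of_nonneg (by linarith)]
        constructor <;> linarith
      · have hx' : c * z a < 0 := mul_neg_of_pos_of_neg hc (not_le.1 hx)
        have h1 := Int.le_ceil (c * z a)
        have h2 := Int.ceil_lt_add_one (c * z a)
        have h0 : ((⌈c * z a⌉ : ℤ) : ℝ) ≤ 0 := by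
          exact_mod_cast Int.ceil_le.2 (by push_cast; linarith)
        rw [abs_of_nonpos h0, abs_of_neg hx', abs_of_nonpos (by linarith)]
        constructor <;> linarith
    have hz1 : ∀ a, |z a| ≤ 1 := fun a => by
      have := (single_le_sum (f := fun b => z b ^ 2) (fun b _ => sq_nonneg _) (mem_univ a)).trans hz
      exact abs_le_one_iff_mul_self_le_one.2 (by nlinarith)
    have hjn : ∀ a, j a ∈ Icc (-(n : ℤ)) n := fun a => by
      have h1 : |(j a : ℝ)| ≤ n := (hj a).1.trans (by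
        rw [abs_mul, abs_of_pos hc]
        exact (mul_le_of_le_one_right hc.le (hz1 a)).trans (Nat.le_ceil c))
      rw [abs_le] at h1
      simp only [mem_Icc]
      exact ⟨by exact_mod_cast h1.1, by exact_mod_cast h1.2⟩
    have hjs : ∑ a, ((j a : ℝ) / r) ^ 2 ≤ m := by
      simp only [div_pow, ← Finset.sum_div]
      rw [div_le_iff₀ (by positivity)]
      calc ∑ a, (j a : ℝ) ^ 2 ≤ ∑ a, (c * z a) ^ 2 := sum_le_sum fun a _ => sq_le_sq.2 (hj a).1
        _ = c ^ 2 * ∑ a, z a ^ 2 := by simp [mul_pow, mul_sum]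
        _ ≤ c ^ 2 * 1 := mul_le_mul_of_nonneg_left hz (sq_nonneg c)
        _ = m * r ^ 2 := by rw [hc2]; ring
    refine ⟨fun a => (j a : ℝ) / c, mem_image.2 ⟨j, mem_filter.2 ⟨Fintype.mem_piFinset.2 hjn, hjs⟩, rfl⟩, ?_⟩
    have : ∀ a, (z a - (j a : ℝ) / c) ^ 2 ≤ 1 / c ^ 2 := fun a => by
      have e : z a - (j a : ℝ) / c = (c * z a - j a) / c := by field_simp
      rw [e, div_pow]
      refine div_le_div_of_nonneg_right ?_ (sq_nonneg c)
      exact (sq_le_one_iff_abs_le_one _).2 (hj a).2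
    refine (sum_le_sum fun a _ => this a).trans (le_of_eq ?_)
    simp only [sum_const, card_univ, Fintype.card_fin, nsmul_eq_mul, hc2]
    field_simp

end Vale.Agent.P166.Nested
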