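import Vale.Agent.P166.Nested.Defs
import Vale.Agent.P166.Nested.Net
import Vale.Agent.P166.Rot

/-!
Fewer than `γN` Gaussian columns are well conditioned, with exponentially small failure probability.
-/

open MeasureTheory ProbabilityTheory Filter Topology Matrix Finset

namespace Vale.Agent.P166.Nested

open Vale.Agent.P166

variable {N : ℕ}

/-- Squared length of the image of a vector, without normalisation. -/
noncomputable def sqimg (w : Fin N → ℝ) (g : Fin (N * N) → ℝ) : ℝ :=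
  ∑ i, (∑ b, mat g b i * w b) ^ 2

theorem measurePreserving_matT (N : ℕ) :
    MeasurePreserving (fun (g : Fin (N * N) → ℝ) i a => mat g a i) (gs (N * N))
      (Measure.pi fun _ : Fin N => gs N) := by
  have h1 : MeasurePreserving
      (fun (g : Fin (N * N) → ℝ) (p : Fin N × Fin N) => g (finProdFinEquiv p.swap))
      (gs (N * N)) (Measure.pi fun _ : Fin N × Fin N => gaussianReal 0 1) :=
    P157.mp_comp (gaussianReal 0 1) (finProdFinEquiv.injective.comp Prod.swap_injective)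
  have h2 : MeasurePreserving (MeasurableEquiv.curry (Fin N) (Fin N) ℝ)
      (Measure.pi fun _ : Fin N × Fin N => gaussianReal 0 1) (Measure.pi fun _ : Fin N => gs N) := by
    refine ⟨MeasurableEquiv.measurable _, ?_⟩
    have := Measure.infinitePi_map_curry fun (_ : Fin N) (_ : Fin N) => gaussianReal 0 1
    simpa [Measure.infinitePi_eq_pi, gs] using this
  exact h2.comp h1

theorem integral_exp_sqimg (w : Fin N → ℝ) {c : ℝ} (hc : c * ∑ b, w b ^ 2 < 1 / 2) :
    Integrable (fun g => Real.exp (c * sqimg w g)) (gs (N * N)) ∧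
      ∫ g, Real.exp (c * sqimg w g) ∂gs (N * N) = chi (c * ∑ b, w b ^ 2) ^ N := by
  set s := ∑ b, w b ^ 2
  have hone : Integrable (fun h : Fin N → ℝ => Real.exp (c * (∑ b, h b * w b) ^ 2)) (gs N) ∧
      ∫ h, Real.exp (c * (∑ b, h b * w b) ^ 2) ∂gs N = chi (c * s) := by
    rcases (show 0 ≤ s from Finset.sum_nonneg fun b _ => sq_nonneg (w b)).eq_or_lt with h0 | h0
    · have hw : ∀ b, w b = 0 := fun b => by
        have := (Finset.sum_eq_zero_iff_of_nonneg fun b _ => sq_nonneg (w b)).1 h0.symm b (mem_univ b)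
        simpa using this
      simp [hw, ← h0, chi]
    · set v : Fin N → ℝ := fun b => w b / √s with hv
      have hv1 : ∑ b, v b ^ 2 = 1 := by
        simp only [hv, div_pow, ← Finset.sum_div, Real.sq_sqrt h0.le]
        exact div_self h0.ne'
      have e : ∀ h : Fin N → ℝ,
          c * (∑ b, h b * w b) ^ 2 = c * s * (∑ b, h b * v b) ^ 2 := fun h => by
        simp only [hv, mul_div_assoc', ← Finset.sum_div, div_pow, Real.sq_sqrt h0.le]
        field_simp
      simp only [e]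
      exact exp_sq_lin v hv1 hc
  have key : ∀ g, Real.exp (c * sqimg w g)
      = ∏ i, Real.exp (c * (∑ b, (fun b => mat g b i) b * w b) ^ 2) := fun g => by
    rw [← Real.exp_sum, sqimg, Finset.mul_sum]
  simp only [key]
  have hI : Integrable (fun G : Fin N → Fin N → ℝ =>
      ∏ i, Real.exp (c * (∑ b, G i b * w b) ^ 2)) (Measure.pi fun _ : Fin N => gs N) :=
    Integrable.fintype_prod fun _ => hone.1
  refine ⟨(measurePreserving_matT N).integrable_comp_of_integrable hI, ?_⟩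
  refine (show _ = ∫ G : Fin N → Fin N → ℝ, ∏ i, Real.exp (c * (∑ b, G i b * w b) ^ 2)
      ∂Measure.pi (fun _ : Fin N => gs N) from ?_).trans ?_
  · conv_rhs => rw [← (measurePreserving_matT N).map_eq]
    rw [integral_map (measurePreserving_matT N).measurable.aemeasurable
      (by rw [(measurePreserving_matT N).map_eq]; exact hI.aestronglyMeasurable)]
  rw [integral_fintype_prod_eq_prod (f := fun _ (h : Fin N → ℝ) =>
    Real.exp (c * (∑ b, h b * w b) ^ 2))]
  simp [hone.2]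

theorem measurable_sqimg (w : Fin N → ℝ) : Measurable (sqimg w) := by
  unfold sqimg mat; fun_prop

/-- Small images are unlikely. -/
theorem prob_small {w : Fin N → ℝ} (hw : 1 / 4 ≤ ∑ b, w b ^ 2) {t : ℝ} (ht : 0 < t) :
    (gs (N * N)).real {g | sqimg w g ≤ t * N} ≤ √(4 * Real.exp 1 * t) ^ N := by
  set s := ∑ b, w b ^ 2
  have hs : 0 < s := by linarith
  set c := -(1 / (2 * t)) with hcdef
  have hc : c ≤ 0 := by rw [hcdef]; exact neg_nonpos.2 (by positivity)
  obtain ⟨hi, he⟩ := integral_exp_sqimg w (c := c) (by nlinarith [mul_nonpos_of_nonpos_of_nonneg hc hs.le])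
  rw [show ∑ b, w b ^ 2 = s from rfl] at he
  have hmark := mul_meas_ge_le_integral_of_nonneg (ae_of_all (gs (N * N))
    fun g => (Real.exp_pos (c * sqimg w g)).le) hi (Real.exp (c * (t * N)))
  have hsub : {g | sqimg w g ≤ t * N} ⊆ {g | Real.exp (c * (t * N)) ≤ Real.exp (c * sqimg w g)} :=
    fun g (hg : sqimg w g ≤ t * N) => Real.exp_le_exp.2 (mul_le_mul_of_nonpos_left hg hc)
  have hmu := measureReal_mono (μ := gs (N * N)) hsub
  have hpos := Real.exp_pos (c * (t * N))
  have h1 : (gs (N * N)).real {g | sqimg w g ≤ t * N} ≤ chi (c * s) ^ N / Real.exp (c * (t * N)) := by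
    rw [le_div_iff₀ hpos, mul_comm]
    rw [he] at hmark
    exact (mul_le_mul_of_nonneg_left hmu hpos.le).trans hmark
  refine h1.trans ?_
  have e : Real.exp (c * (t * N)) = Real.exp (-(1 / 2)) ^ N := by
    rw [← Real.exp_nat_mul, hcdef]
    congr 1
    field_simp
  rw [e, ← div_pow]
  refine pow_le_pow_left₀ (div_nonneg (by unfold chi; positivity) (Real.exp_pos _).le) ?_ N
  have hcs : 1 - 2 * (c * s) = 1 + s / t := by rw [hcdef]; field_simp; ring
  rw [chi, hcs, Real.exp_neg, div_eq_mul_inv, inv_inv, ← Real.sqrt_inv, Real.exp_half,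
    ← Real.sqrt_mul (by positivity)]
  refine Real.sqrt_le_sqrt ?_
  rw [inv_mul_le_iff₀ (by positivity)]
  have : 1 ≤ (1 + s / t) * (4 * t) := by
    have : (1 + s / t) * (4 * t) = 4 * t + 4 * s := by field_simp
    linarith
  calc Real.exp 1 = Real.exp 1 * 1 := (mul_one _).symm
    _ ≤ Real.exp 1 * ((1 + s / t) * (4 * t)) := mul_le_mul_of_nonneg_left this (Real.exp_pos _).le
    _ = _ := by ring

/-- Large images are unlikely. -/
theorem prob_large {w : Fin N → ℝ} (hw : ∑ b, w b ^ 2 ≤ 1) (t : ℝ) :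
    (gs (N * N)).real {g | t * N ≤ sqimg w g} ≤ (2 * Real.exp (-(t / 4))) ^ N := by
  have hs0 : 0 ≤ ∑ b, w b ^ 2 := Finset.sum_nonneg fun b _ => sq_nonneg (w b)
  obtain ⟨hi, he⟩ := integral_exp_sqimg w (c := 1 / 4) (by linarith)
  have hmark := mul_meas_ge_le_integral_of_nonneg (ae_of_all (gs (N * N))
    fun g => (Real.exp_pos (1 / 4 * sqimg w g)).le) hi (Real.exp (1 / 4 * (t * N)))
  have hsub : {g | t * N ≤ sqimg w g}
      ⊆ {g | Real.exp (1 / 4 * (t * N)) ≤ Real.exp (1 / 4 * sqimg w g)} :=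
    fun g (hg : t * N ≤ sqimg w g) => Real.exp_le_exp.2 (mul_le_mul_of_nonneg_left hg (by norm_num))
  have hmu := measureReal_mono (μ := gs (N * N)) hsub
  have hpos := Real.exp_pos (1 / 4 * (t * N))
  rw [he] at hmark
  have h1 : (gs (N * N)).real {g | t * N ≤ sqimg w g}
      ≤ chi (1 / 4 * ∑ b, w b ^ 2) ^ N / Real.exp (1 / 4 * (t * N)) := by
    rw [le_div_iff₀ hpos, mul_comm]
    exact (mul_le_mul_of_nonneg_left hmu hpos.le).trans hmark
  refine h1.trans ?_
  rw [mul_pow, div_eq_mul_inv, ← Real.exp_neg,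
    show -(1 / 4 * (t * N)) = (N : ℝ) * -(t / 4) by ring, Real.exp_nat_mul]
  refine mul_le_mul_of_nonneg_right (pow_le_pow_left₀ (by unfold chi; positivity) ?_ N) (by positivity)
  rw [chi]
  have h4 : (1 / 2 : ℝ) ≤ √(1 - 2 * (1 / 4 * ∑ b, w b ^ 2)) := Real.le_sqrt_of_sq_le (by nlinarith)
  rw [inv_le_comm₀ (lt_of_lt_of_le (by norm_num) h4) (by norm_num)]
  linarith

theorem cols_mulVec {m : ℕ} {w : Fin N → ℝ} (hw : ∀ b : Fin N, ¬(b : ℕ) < m → w b = 0)
    (g : Fin (N * N) → ℝ) (i : Fin N) :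
    (cols m g *ᵥ w) i = (∑ b, mat g b i * w b) / √(N : ℝ) := by
  simp only [Matrix.mulVec, dotProduct, cols, Finset.sum_div]
  refine Finset.sum_congr rfl fun b _ => ?_
  split_ifs with h
  · ring
  · simp [hw b h]

/-- Net bounds give conditioning. -/
theorem cond_of_nets {m : ℕ} {r : ℝ} (hr1 : 34 ≤ r) (hN : 0 < N) (hmN : m ≤ N)
    {ext : (Fin m → ℝ) → Fin N → ℝ} (hext0 : ∀ u (b : Fin N), ¬(b : ℕ) < m → ext u b = 0)
    (hext2 : ∀ u, ∑ b, ext u b ^ 2 = ∑ a, u a ^ 2)
    (hext : ∀ u (b : Fin N) (h : (b : ℕ) < m), ext u b = u ⟨b, h⟩) {g : Fin (N * N) → ℝ}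
    {T T₂ : Finset (Fin m → ℝ)}
    (hT₂n : ∀ z : Fin m → ℝ, ∑ a, z a ^ 2 ≤ 1 → ∃ u ∈ T₂, ∑ a, (z a - u a) ^ 2 ≤ 1 / (2 : ℝ) ^ 2)
    (hTn : ∀ z : Fin m → ℝ, ∑ a, z a ^ 2 ≤ 1 → ∃ u ∈ T, ∑ a, (z a - u a) ^ 2 ≤ 1 / r ^ 2)
    (hhi : ∀ u ∈ T₂, sqimg (ext u) g ≤ 64 * N)
    (hlo : ∀ u ∈ T, 1 / 4 ≤ ∑ a, u a ^ 2 → 289 / r ^ 2 * N ≤ sqimg (ext u) g) :
    WellCond (1 / r ^ 2) 256 m g := by
  have hN' : (0 : ℝ) < N := by exact_mod_cast hN
  have hr0 : 0 < r := by linarith
  have hlin : ∀ (c : ℝ) (z u : Fin m → ℝ), ext (fun a => c * z a + u a) = c • ext z + ext u := fun c z u => by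
    funext b
    simp only [Pi.add_apply, Pi.smul_apply, smul_eq_mul]
    by_cases h : (b : ℕ) < m
    · simp only [hext _ b h]
    · simp only [hext0 _ b h]; ring
  have hsN : 0 < √(N : ℝ) := Real.sqrt_pos.2 hN'
  -- the image as a linear map into Euclidean space
  set L : (Fin m → ℝ) → EuclideanSpace ℝ (Fin N) := fun z => WithLp.toLp 2 (cols m g *ᵥ ext z) with hL
  have hLs : ∀ z u, L (fun a => z a - u a) = L z - L u := fun z u => by
    have : ext (fun a => z a - u a) = ext z - ext u := by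
      have e := hlin (-1) u z
      rw [show (fun a => z a - u a) = (fun a => (-1 : ℝ) * u a + z a) by funext a; ring, e]
      module
    simp only [hL, this, Matrix.mulVec_sub, WithLp.toLp_sub]
  have hLn : ∀ z, ‖L z‖ ^ 2 = sqimg (ext z) g / N := fun z => by
    rw [EuclideanSpace.norm_eq, Real.sq_sqrt (Finset.sum_nonneg fun i _ => sq_nonneg _)]
    simp only [hL, Real.norm_eq_abs, sq_abs, cols_mulVec (hext0 z), div_pow, Real.sq_sqrt hN'.le,
      ← Finset.sum_div, sqimg]
  have hLhom : ∀ (c : ℝ) z, L (fun a => c * z a) = c • L z := fun c z => by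
    have h0 : ext 0 = 0 := by
      funext b
      by_cases h : (b : ℕ) < m
      · rw [hext _ b h]; rfl
      · rw [hext0 _ b h]; rfl
    have : ext (fun a => c * z a) = c • ext z := by
      have e := hlin c z 0
      simpa [h0] using e
    simp only [hL, this, Matrix.mulVec_smul, WithLp.toLp_smul]
  -- the operator bound
  obtain ⟨C, hC⟩ : ∃ C, ∀ z : Fin m → ℝ, ‖L z‖ ≤ C * √(∑ a, z a ^ 2) := by
    refine ⟨√(∑ i, ∑ b, cols m g i b ^ 2), fun z => ?_⟩
    rw [EuclideanSpace.norm_eq, ← hext2, ← Real.sqrt_mul (show 0 ≤ ∑ i, ∑ b, cols m g i b ^ 2 from Finset.sum_nonneg fun i _ =>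
      Finset.sum_nonneg fun b _ => sq_nonneg (cols m g i b)), Finset.sum_mul]
    refine Real.sqrt_le_sqrt (Finset.sum_le_sum fun i _ => ?_)
    simp only [hL, Real.norm_eq_abs, sq_abs, Matrix.mulVec, dotProduct]
    exact Finset.sum_mul_sq_le_sq_mul_sq univ (fun b => cols m g i b) (ext z)
  have hup : ∀ z : Fin m → ℝ, ‖L z‖ ≤ 16 * √(∑ a, z a ^ 2) := by
    have hball : ∀ u ∈ T₂, ‖L u‖ ≤ 8 := fun u hu => by
      have h := hhi u hu
      have : ‖L u‖ ^ 2 ≤ 8 ^ 2 := by rw [hLn, div_le_iff₀ hN']; linarith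
      exact (sq_le_sq₀ (norm_nonneg _) (by norm_num)).1 this
    have step : ∀ C : ℝ, 0 ≤ C → (∀ z : Fin m → ℝ, ‖L z‖ ≤ C * √(∑ a, z a ^ 2)) →
        ∀ z : Fin m → ℝ, ‖L z‖ ≤ (8 + C / 2) * √(∑ a, z a ^ 2) := by
      intro C hC0 hC z
      rcases (show 0 ≤ ∑ a, z a ^ 2 from Finset.sum_nonneg fun a _ => sq_nonneg (z a)).eq_or_lt with h0 | h0
      · have := hC z
        rw [← h0, Real.sqrt_zero, mul_zero] at this ⊢
        exact this
      set s := √(∑ a, z a ^ 2)
      have hs : 0 < s := Real.sqrt_pos.2 h0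
      set y : Fin m → ℝ := fun a => z a / s
      have hy : ∑ a, y a ^ 2 = 1 := by
        simp only [y, div_pow, ← Finset.sum_div, s, Real.sq_sqrt h0.le]
        exact div_self h0.ne'
      obtain ⟨u, hu, hd⟩ := hT₂n y hy.le
      have h1 : ‖L y‖ ≤ 8 + C / 2 := by
        have e : L y = L u + L (fun a => y a - u a) := by rw [hLs]; abel
        rw [e]
        refine (norm_add_le _ _).trans (add_le_add (hball u hu) ((hC _).trans ?_))
        rw [div_eq_mul_one_div C 2]
        refine mul_le_mul_of_nonneg_left ?_ hC0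
        rw [Real.sqrt_le_left (by norm_num)]
        linarith
      have e2 : L z = s • L y := by
        rw [← hLhom]; congr 1; funext a; simp only [y]; field_simp
      rw [e2, norm_smul, Real.norm_of_nonneg hs.le, mul_comm s]
      exact mul_le_mul_of_nonneg_right h1 hs.le
    have hit : ∀ n : ℕ, ∀ z : Fin m → ℝ,
        ‖L z‖ ≤ (16 + max C 0 / 2 ^ n) * √(∑ a, z a ^ 2) := by
      intro n
      induction n with
      | zero => exact fun z => (hC z).trans (mul_le_mul_of_nonneg_right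
          (by simp only [pow_zero, div_one]; linarith [le_max_left C 0]) (Real.sqrt_nonneg _))
      | succ n ih =>
        intro z
        refine (step _ (by positivity) ih z).trans (le_of_eq ?_)
        rw [pow_succ]; ring
    intro z
    refine le_of_tendsto_of_tendsto' (tendsto_const_nhds (f := atTop)) ?_ fun n => hit n z
    have : Tendsto (fun n : ℕ => max C 0 / 2 ^ n) atTop (𝓝 0) :=
      tendsto_const_nhds.div_atTop (tendsto_pow_atTop_atTop_of_one_lt one_lt_two)
    simpa using ((this.const_add 16).mul_const (√(∑ a, z a ^ 2)))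
  have hdown : ∀ z : Fin m → ℝ, ∑ a, z a ^ 2 = 1 → 1 / r ≤ ‖L z‖ := fun z hz => by
    obtain ⟨u, hu, hd⟩ := hTn z hz.le
    have hd' : √(∑ a, (z a - u a) ^ 2) ≤ 1 / r := by
      rw [Real.sqrt_le_left (by positivity), _root_.one_div_pow]; exact hd
    have hu4 : 1 / 4 ≤ ∑ a, u a ^ 2 := by
      have h1 : ∑ a, z a ^ 2 ≤ 2 * (∑ a, u a ^ 2) + 2 * ∑ a, (z a - u a) ^ 2 := by
        rw [Finset.mul_sum, Finset.mul_sum, ← Finset.sum_add_distrib]
        exact Finset.sum_le_sum fun a _ => by nlinarith [sq_nonneg (u a - (z a - u a))]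
      have : 1 / r ^ 2 ≤ 1 / 4 := div_le_div_of_nonneg_left zero_le_one (by norm_num) (by nlinarith)
      linarith
    have h17 : 17 / r ≤ ‖L u‖ := by
      have h := hlo u hu hu4
      refine (sq_le_sq₀ (by positivity) (norm_nonneg _)).1 ?_
      rw [hLn, le_div_iff₀ hN', div_pow]
      norm_num
      linarith
    have h3 : ‖L u‖ ≤ ‖L z‖ + 16 * (1 / r) := by
      have e : L u = L z - L (fun a => z a - u a) := by rw [hLs]; abel
      rw [e]
      exact (norm_sub_le _ _).trans (add_le_add le_rfl ((hup _).trans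
        (mul_le_mul_of_nonneg_left hd' (by norm_num))))
    have : 17 / r = 1 / r + 16 * (1 / r) := by ring
    linarith
  intro w hw
  set z : Fin m → ℝ := fun a => w (Fin.castLE hmN a)
  have hwz : w = ext z := by
    funext b
    by_cases h : (b : ℕ) < m
    · rw [hext _ b h]; rfl
    · rw [hext0 _ b h, hw b h]
  have hsq : ∑ i, (cols m g *ᵥ w) i ^ 2 = ‖L z‖ ^ 2 := by
    rw [EuclideanSpace.norm_eq, Real.sq_sqrt (Finset.sum_nonneg fun i _ => sq_nonneg _), hwz]
    simp [hL]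
  rw [hsq, show ∑ b, w b ^ 2 = ∑ a, z a ^ 2 by rw [hwz, hext2]]
  rcases (show 0 ≤ ∑ a, z a ^ 2 from Finset.sum_nonneg fun a _ => sq_nonneg (z a)).eq_or_lt with h0 | h0
  · have := hup z
    rw [← h0, Real.sqrt_zero, mul_zero] at this
    have hz0 : ‖L z‖ = 0 := le_antisymm this (norm_nonneg _)
    rw [← h0, hz0]; simp
  set s := √(∑ a, z a ^ 2)
  have hs : 0 < s := Real.sqrt_pos.2 h0
  have hs2 : s ^ 2 = ∑ a, z a ^ 2 := Real.sq_sqrt h0.le
  refine ⟨?_, ?_⟩
  · have hy : ∑ a, (z a / s) ^ 2 = 1 := by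
      simp only [div_pow, ← Finset.sum_div, hs2]; exact div_self h0.ne'
    have h := hdown _ hy
    have e : L z = s • L (fun a => z a / s) := by
      rw [← hLhom]; congr 1; funext a; field_simp
    rw [e, norm_smul, Real.norm_of_nonneg hs.le, mul_pow, ← hs2]
    rw [mul_comm]
    refine mul_le_mul_of_nonneg_left ?_ (sq_nonneg s)
    calc 1 / r ^ 2 = (1 / r) ^ 2 := (_root_.one_div_pow r 2).symm
      _ ≤ _ := pow_le_pow_left₀ (by positivity) h 2
  · calc ‖L z‖ ^ 2 ≤ (16 * s) ^ 2 := pow_le_pow_left₀ (norm_nonneg _) (hup z) 2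
      _ = _ := by rw [mul_pow, hs2]; norm_num

/-- Columns with `m ≤ γ N`, `γ < 1`, are well conditioned outside a set of exponentially small mass. -/
theorem well_cond {γ : ℝ} (hγ0 : 0 ≤ γ) (hγ : γ < 1) :
    ∃ a K : ℝ, 0 < a ∧ 0 < K ∧ ∀ N m : ℕ, 0 < N → (m : ℝ) ≤ γ * N →
      ∃ B : Set (Fin (N * N) → ℝ), MeasurableSet B ∧ (gs (N * N)).real B ≤ 2 * (1 / 2) ^ N ∧
        ∀ g ∉ B, WellCond a K m g := by
  classical
  obtain ⟨r, hr1, hr⟩ : ∃ r : ℝ, 34 ≤ r ∧
      √(4 * Real.exp 1 * 289) * (18 : ℝ) * (r ^ (γ - 1)) ≤ 1 / 2 := by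
    have h : Tendsto (fun r : ℝ => √(4 * Real.exp 1 * 289) * (18 : ℝ) * r ^ (γ - 1)) atTop (𝓝 0) := by
      have h := (tendsto_rpow_neg_atTop (show 0 < 1 - γ by linarith)).const_mul
        (√(4 * Real.exp 1 * 289) * (18 : ℝ))
      rw [mul_zero] at h
      exact h.congr fun r => by rw [neg_sub]
    obtain ⟨r, h1, h2⟩ := ((eventually_ge_atTop (34 : ℝ)).and
      (h.eventually (ge_mem_nhds (by norm_num : (0 : ℝ) < 1 / 2)))).exists
    exact ⟨r, h1, h2⟩
  have hr0 : 0 < r := by linarith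
  refine ⟨1 / r ^ 2, 256, by positivity, by norm_num, fun N m hN hm => ?_⟩
  have hN' : (0 : ℝ) < N := by exact_mod_cast hN
  have hmN : m ≤ N := by
    have : (m : ℝ) ≤ N := hm.trans (mul_le_of_le_one_left hN'.le hγ.le)
    exact_mod_cast this
  obtain ⟨T, hTc, hT1, hTn⟩ := exists_lattice_net m (show (1 : ℝ) ≤ r by linarith)
  obtain ⟨T₂, hT₂c, hT₂1, hT₂n⟩ := exists_lattice_net m (show (1 : ℝ) ≤ 2 by norm_num)
  set ext : (Fin m → ℝ) → Fin N → ℝ := fun u b => if h : (b : ℕ) < m then u ⟨b, h⟩ else 0 with hext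
  have hext2 : ∀ u, ∑ b, ext u b ^ 2 = ∑ a, u a ^ 2 := fun u => by
    have e1 : ∑ b, ext u b ^ 2 = ∑ b ∈ (univ : Finset (Fin m)).image (Fin.castLE hmN), ext u b ^ 2 := by
      refine (Finset.sum_subset (subset_univ _) fun b _ hb => ?_).symm
      have : ¬(b : ℕ) < m := fun h => hb (mem_image.2 ⟨⟨b, h⟩, mem_univ _, rfl⟩)
      simp [hext, this]
    rw [e1, Finset.sum_image fun x _ y _ h => (Fin.castLE_injective hmN) h]
    exact Finset.sum_congr rfl fun a _ => by simp [hext]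
  have hext0 : ∀ u (b : Fin N), ¬(b : ℕ) < m → ext u b = 0 := fun u b hb => by simp [hext, hb]
  set S₁ := T.filter fun u => 1 / 4 ≤ ∑ a, u a ^ 2
  set B₁ : Set (Fin (N * N) → ℝ) := ⋃ u ∈ S₁, {g | sqimg (ext u) g ≤ 289 / r ^ 2 * N}
  set B₂ : Set (Fin (N * N) → ℝ) := ⋃ u ∈ T₂, {g | (64 : ℝ) * N ≤ sqimg (ext u) g}
  refine ⟨B₁ ∪ B₂, (Finset.measurableSet_biUnion _ fun u _ =>
      measurableSet_le (measurable_sqimg _) measurable_const).union
    (Finset.measurableSet_biUnion _ fun u _ => measurableSet_le measurable_const (measurable_sqimg _)),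
    ?_, fun g hg => ?_⟩
  · refine (measureReal_union_le _ _).trans ?_
    rw [two_mul]
    refine add_le_add ?_ ?_
    · refine (measureReal_biUnion_finset_le _ _).trans ((Finset.sum_le_card_nsmul _ _ _ fun u hu =>
        prob_small (w := ext u) (by rw [hext2]; exact (mem_filter.1 hu).2) (by positivity)).trans ?_)
      rw [nsmul_eq_mul]
      have hcard : (S₁.card : ℝ) ≤ (18 * r) ^ m :=
        (Nat.cast_le.2 (card_filter_le _ _)).trans hTc
      have h18 : (1 : ℝ) ≤ 18 * r := by linarith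
      have hp : ((18 : ℝ) * r) ^ m ≤ ((18 * r) ^ γ) ^ N := by
        rw [← Real.rpow_natCast _ m, ← Real.rpow_natCast _ N, ← Real.rpow_mul (by positivity)]
        exact Real.rpow_le_rpow_of_exponent_le h18 hm
      refine (mul_le_mul_of_nonneg_right (hcard.trans hp) (by positivity)).trans ?_
      rw [← mul_pow]
      refine pow_le_pow_left₀ (by positivity) (le_trans ?_ hr) N
      have h18γ : (18 : ℝ) ^ γ ≤ 18 := by
        simpa using Real.rpow_le_rpow_of_exponent_le (by norm_num : (1 : ℝ) ≤ 18) hγ.le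
      rw [show 4 * Real.exp 1 * (289 / r ^ 2) = 4 * Real.exp 1 * 289 / r ^ 2 by ring,
        Real.sqrt_div (by positivity), Real.sqrt_sq hr0.le, Real.mul_rpow (by norm_num) hr0.le,
        Real.rpow_sub hr0, Real.rpow_one]
      calc 18 ^ γ * r ^ γ * (√(4 * Real.exp 1 * 289) / r)
          = 18 ^ γ * (√(4 * Real.exp 1 * 289) * (r ^ γ / r)) := by ring
        _ ≤ 18 * (√(4 * Real.exp 1 * 289) * (r ^ γ / r)) :=
            mul_le_mul_of_nonneg_right h18γ (by positivity)
        _ = _ := by ring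
    · refine (measureReal_biUnion_finset_le _ _).trans ((Finset.sum_le_card_nsmul _ _ _ fun u hu =>
        prob_large (w := ext u) (by rw [hext2]; exact hT₂1 u hu) 64).trans ?_)
      rw [nsmul_eq_mul]
      refine (mul_le_mul_of_nonneg_right (hT₂c.trans (pow_le_pow_right₀ (by norm_num) hmN))
        (by positivity)).trans ?_
      rw [← mul_pow]
      refine pow_le_pow_left₀ (by positivity) ?_ N
      have : Real.exp (-((64 : ℝ) / 4)) ≤ 1 / 256 := by
        rw [Real.exp_neg, one_div]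
        refine inv_anti₀ (by norm_num) ?_
        have e : Real.exp ((64 : ℝ) / 4) = Real.exp 8 * Real.exp 8 := by rw [← Real.exp_add]; norm_num
        have e8 : Real.exp (8 : ℝ) = Real.exp 4 * Real.exp 4 := by rw [← Real.exp_add]; norm_num
        have h4 : (5 : ℝ) ≤ Real.exp 4 := by linarith [Real.add_one_le_exp (4 : ℝ)]
        have h8 : (25 : ℝ) ≤ Real.exp 8 := by rw [e8]; nlinarith
        rw [e]
        nlinarith
      linarith
  · simp only [B₁, B₂, Set.mem_union, Set.mem_iUnion₂, Set.mem_ofPred_eq, not_or, not_exists, not_le] at hg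
    exact cond_of_nets hr1 hN hmN hext0 hext2 (fun u b h => by simp [hext, h]) hT₂n hTn
      (fun u hu => (hg.2 u hu).le) (fun u hu h4 => (hg.1 u (mem_filter.2 ⟨hu, h4⟩)).le)

end Vale.Agent.P166.Nested
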