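import Vale.Agent.P166.Nested.Project
import Vale.Agent.P166.Nested.Singular

/-!
The mean pressure of the nested coupling against that of a rotated step spectrum.
-/

open MeasureTheory ProbabilityTheory Filter Topology Matrix Finset

namespace Vale.Agent.P166.Nested

open Vale.Agent.P166

variable {N K : ℕ}

theorem spin_dot (σ : Fin N → Bool) : (fun i => spin (σ i)) ⬝ᵥ (fun i => spin (σ i)) = (N : ℝ) := by
  have h1 : ∀ b, spin b * spin b = 1 := fun b => by cases b <;> simp [spin]
  simp [dotProduct, h1]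

theorem mpr_le_of_qs (hN : 0 < N) {A B : Matrix (Fin N) (Fin N) ℝ} {e : ℝ}
    (h : ∀ σ, qs A σ ≤ qs B σ + e * N) : mpr A ≤ mpr B + e / 2 := by
  have hN' : (0 : ℝ) < N := by exact_mod_cast hN
  have hs : ∀ C : Matrix (Fin N) (Fin N) ℝ,
      (0 : ℝ) < ((2 : ℝ) ^ N)⁻¹ * ∑ σ : Fin N → Bool, Real.exp (1 / 2 * qs C σ) := fun C =>
    mul_pos (by positivity) (Finset.sum_pos (fun σ _ => Real.exp_pos _) univ_nonempty)
  have h1 := Real.log_le_log (hs A) (show ((2 : ℝ) ^ N)⁻¹ * ∑ σ : Fin N → Bool, Real.exp (1 / 2 * qs A σ)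
      ≤ Real.exp (e * N / 2) * (((2 : ℝ) ^ N)⁻¹ * ∑ σ : Fin N → Bool, Real.exp (1 / 2 * qs B σ)) by
    rw [mul_left_comm]
    refine mul_le_mul_of_nonneg_left ?_ (by positivity)
    rw [Finset.mul_sum]
    refine Finset.sum_le_sum fun σ _ => ?_
    rw [← Real.exp_add]
    exact Real.exp_le_exp.2 (by linarith [h σ]))
  rw [Real.log_mul (Real.exp_pos _).ne' (hs B).ne', Real.log_exp] at h1
  simp only [mpr]
  refine (mul_le_mul_of_nonneg_left h1 (by positivity)).trans (le_of_eq ?_)
  field_simp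
  ring

theorem abs_mpr_sub_le (hN : 0 < N) {A B : Matrix (Fin N) (Fin N) ℝ} {e : ℝ}
    (h : ∀ σ, |qs A σ - qs B σ| ≤ e * N) : |mpr A - mpr B| ≤ e / 2 := by
  have h1 := mpr_le_of_qs hN (A := A) (B := B) (e := e) fun σ => by linarith [(abs_le.1 (h σ)).2]
  have h2 := mpr_le_of_qs hN (A := B) (B := A) (e := e) fun σ => by linarith [(abs_le.1 (h σ)).1]
  exact abs_le.2 ⟨by linarith, by linarith⟩

theorem mpr_zero : mpr (0 : Matrix (Fin N) (Fin N) ℝ) = 0 := by
  simp [mpr, qs]

theorem abs_mpr_nest_le (hN : 0 < N) (t0 : ℝ) {c δ : Fin K → ℝ} (hδ : ∀ k, 0 < δ k)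
    (m : Fin K → ℕ) (g : Fin (N * N) → ℝ) :
    |mpr (nest t0 c δ m g)| ≤ (|t0| + ∑ k, |c k|) / 2 := by
  rw [← sub_zero (mpr (nest t0 c δ m g)), ← mpr_zero]
  refine abs_mpr_sub_le hN fun σ => ?_
  have e : qs (nest t0 c δ m g) σ = t0 * N + ∑ k, c k * qs (pdel (δ k) (m k) g) σ := by
    simp only [nest, qs, Matrix.add_mulVec, dotProduct_add, Matrix.smul_mulVec, Matrix.one_mulVec,
      dotProduct_smul, smul_eq_mul, spin_dot, Matrix.sum_mulVec, dotProduct_sum]
  rw [e, show qs (0 : Matrix (Fin N) (Fin N) ℝ) σ = 0 by simp [qs], sub_zero, add_mul, Finset.sum_mul]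
  refine (abs_add_le _ _).trans (add_le_add (by rw [abs_mul, Nat.abs_cast])
    ((Finset.abs_sum_le_sum_abs _ _).trans (Finset.sum_le_sum fun k _ => ?_)))
  obtain ⟨h0, h1⟩ := pdel_bounds (hδ k) (m k) g fun i => spin (σ i)
  rw [spin_dot] at h1
  rw [abs_mul, qs, abs_of_nonneg h0]
  exact mul_le_mul_of_nonneg_left h1 (abs_nonneg _)

theorem cols_rot (U : Matrix (Fin N) (Fin N) ℝ) (m : ℕ) (g : Fin (N * N) → ℝ) :
    cols m (rot U g) = Uᵀ * cols m g := by
  ext i b
  simp only [cols, Matrix.mul_apply, Matrix.transpose_apply, mat_rot]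
  split_ifs with h
  · rw [Finset.sum_div]
    exact Finset.sum_congr rfl fun l _ => by ring
  · simp

theorem pdel_rot {U : Matrix (Fin N) (Fin N) ℝ} (hU : Uᵀ * U = 1) (δ : ℝ) (m : ℕ)
    (g : Fin (N * N) → ℝ) : pdel δ m (rot U g) = Uᵀ * pdel δ m g * U := by
  have hU' : U * Uᵀ = 1 := mul_eq_one_comm.1 hU
  have e : (Uᵀ * cols m g)ᵀ * (Uᵀ * cols m g) = (cols m g)ᵀ * cols m g := by
    rw [Matrix.transpose_mul, Matrix.transpose_transpose, Matrix.mul_assoc, ← Matrix.mul_assoc U, hU',
      Matrix.one_mul]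
  simp only [pdel, cols_rot, e]
  simp only [Matrix.transpose_mul, Matrix.transpose_transpose, Matrix.mul_assoc]

theorem measurable_mpr_nest (hN : 0 < N) {τ : ℝ} (hτ : 0 < τ) (t0 : ℝ) {c : Fin K → ℝ}
    (hc : ∀ k, 0 < c k) (m : Fin K → ℕ) :
    Measurable fun g : Fin (N * N) → ℝ => mpr (nest t0 c (fun k => 1 / (c k * τ)) m g) := by
  have hz : ∀ {L : ℕ} (f : (Fin L → ℝ) → ℝ), Continuous f → ∀ m' : Fin L → ℕ,
      Measurable fun g : Fin (N * N) → ℝ => zf τ f m' g := by
    intro L f hf m'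
    refine (StronglyMeasurable.integral_prod_right' (f := fun p : (Fin (N * N) → ℝ) × (Fin L → Fin N → ℝ) =>
      Real.exp (∑ i, f fun k => (cols (m' k) p.1 *ᵥ (√τ • p.2 k)) i)) ?_).measurable
    refine Continuous.stronglyMeasurable (Real.continuous_exp.comp (continuous_finsetSum _ fun i _ =>
      hf.comp (continuous_pi fun k => ?_)))
    simp only [Matrix.mulVec, dotProduct, cols, mat, Pi.smul_apply, smul_eq_mul]
    refine continuous_finsetSum _ fun b _ => Continuous.mul ?_ (by fun_prop)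
    split_ifs <;> fun_prop
  simp only [mpr_nest hN hτ t0 hc m]
  have hp : Continuous (pot c) := by
    unfold pot
    refine Continuous.sub (Continuous.log (by fun_prop) fun y => (Real.cosh_pos _).ne') (by fun_prop)
  exact (((hz (pot c) hp m).log.sub (Finset.measurable_sum _ fun k _ =>
    (hz (fun y : Fin 1 → ℝ => -(c k * y 0 ^ 2 / 2)) (by fun_prop) fun _ => m k).log)).const_mul _).const_add _

theorem integrable_mpr_nest (hN : 0 < N) {τ : ℝ} (hτ : 0 < τ) (t0 : ℝ) {c : Fin K → ℝ}
    (hc : ∀ k, 0 < c k) (m : Fin K → ℕ) :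
    Integrable (fun g => mpr (nest t0 c (fun k => 1 / (c k * τ)) m g)) (gs (N * N)) :=
  Integrable.of_bound (measurable_mpr_nest hN hτ t0 hc m).aestronglyMeasurable
    ((|t0| + ∑ k, |c k|) / 2) (ae_of_all _ fun g => by
      rw [Real.norm_eq_abs]
      exact abs_mpr_nest_le hN t0 (fun k => one_div_pos.2 (mul_pos (hc k) hτ)) m g)

/-- The mean nested pressure against the mean pressure of the step spectrum. -/
theorem nest_close (hN : 0 < N) {law : Measure (Fin N → Fin N → ℝ)} [IsProbabilityMeasure law]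
    (hlaw : LeftInv law) {β t0 τ : ℝ} (hτ : 0 < τ) {c : Fin K → ℝ} (hc : ∀ k, 0 < c k)
    {m : Fin K → ℕ} (hm : ∀ k, m k ≤ N) {lam : Fin N → ℝ}
    (hlam : ∀ j : Fin N, β * lam j = t0 + ∑ k, c k * (if (j : ℕ) < m k then 1 else 0))
    {a Kb : Fin K → ℝ} (ha : ∀ k, 0 < a k) {B : Set (Fin (N * N) → ℝ)} (hB : MeasurableSet B)
    (hwell : ∀ g ∉ B, ∀ k, WellCond (a k) (Kb k) (m k) g) :
    |∫ g, mpr (nest t0 c (fun k => 1 / (c k * τ)) m g) ∂gs (N * N) - ∫ U, pr β lam U ∂law|
      ≤ (∑ k, 1 / (τ * a k)) / 2 + (|t0| + ∑ k, c k) * (gs (N * N)).real B := by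
  classical
  set δ : Fin K → ℝ := fun k => 1 / (c k * τ)
  have hδ : ∀ k, 0 < δ k := fun k => one_div_pos.2 (mul_pos (hc k) hτ)
  set Φ : (Fin (N * N) → ℝ) → ℝ := fun g => mpr (nest t0 c δ m g)
  have hgood : ∀ᵐ U ∂law, Good U := hlaw.1.mono fun U hU => good_of_orth hU
  set L := ∫ U, pr β lam U ∂law
  set C := (|t0| + ∑ k, c k) / 2
  have hC : ∀ g, |Φ g| ≤ C := fun g => by
    refine (abs_mpr_nest_le hN t0 hδ m g).trans_eq ?_
    simp only [C, abs_of_pos (hc _)]
  have hΦm : Measurable Φ := measurable_mpr_nest hN hτ t0 hc m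
  have hrm : Measurable fun p : (Fin (N * N) → ℝ) × (Fin N → Fin N → ℝ) => rot (Matrix.of p.2) p.1 := by
    refine measurable_pi_lambda _ fun j => ?_
    simp only [rot, Matrix.mul_apply, mat, Matrix.of_apply]
    fun_prop
  have hI : Integrable (fun p : (Fin (N * N) → ℝ) × (Fin N → Fin N → ℝ) => Φ (rot (Matrix.of p.2) p.1))
      ((gs (N * N)).prod law) :=
    Integrable.of_bound (hΦm.comp hrm).aestronglyMeasurable C
      (ae_of_all _ fun p => by rw [Real.norm_eq_abs]; exact hC _)
  set ψ : (Fin (N * N) → ℝ) → ℝ := fun g => ∫ U, Φ (rot (Matrix.of U) g) ∂law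
  have hψ : ∫ g, ψ g ∂gs (N * N) = ∫ g, Φ g ∂gs (N * N) := by
    rw [integral_integral_swap hI, integral_congr_ae (g := fun _ => ∫ g, Φ g ∂gs (N * N))]
    · simp
    filter_upwards [hlaw.1] with U hU
    have h := measurePreserving_rot (M := N) (Matrix.of U) hU
    conv_rhs => rw [← h.map_eq]
    rw [integral_map h.measurable.aemeasurable hΦm.aestronglyMeasurable]
  have hLC : |L| ≤ C := by
    rw [← Real.norm_eq_abs]
    refine (norm_integral_le_of_norm_le_const (C := C) (hgood.mono fun U hU => ?_)).trans_eq (by simp)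
    rw [Real.norm_eq_abs]
    have hb : ∀ j, |β * lam j| ≤ |t0| + ∑ k, c k := fun j => by
      rw [hlam j]
      refine (abs_add_le _ _).trans (add_le_add le_rfl ((Finset.abs_sum_le_sum_abs _ _).trans
        (Finset.sum_le_sum fun k _ => ?_)))
      split_ifs <;> simp [abs_of_pos (hc k), (hc k).le]
    have e : pr β lam U = pr 1 (fun j => β * lam j) U := by
      simp only [pr, wgt]
      congr 3
      refine Finset.sum_congr rfl fun σ _ => congrArg Real.exp ?_
      rw [Finset.mul_sum, Finset.mul_sum]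
      exact Finset.sum_congr rfl fun i _ => by ring
    rw [e]
    exact (abs_pr_le hN hU hb).trans_eq (by simp [C]; ring)
  set e0 := (∑ k, 1 / (τ * a k)) / 2
  have hkey : ∀ g ∉ B, |ψ g - L| ≤ e0 := fun g hg => by
    obtain ⟨O, hO, hO', hcol⟩ := exists_frame g
    have hOr : law = law.map fun (V : Fin N → Fin N → ℝ) i k => (Oᵀ * Matrix.of V) i k :=
      (hlaw.2 Oᵀ (by rw [Matrix.transpose_transpose]; exact hO')).symm
    have hmul : Measurable fun (V : Fin N → Fin N → ℝ) i k => (Oᵀ * Matrix.of V) i k := by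
      refine measurable_pi_lambda _ fun i => measurable_pi_lambda _ fun k => ?_
      simp only [Matrix.mul_apply, Matrix.of_apply]
      fun_prop
    have hLg : L = ∫ U, pr β lam (fun i k => (Oᵀ * Matrix.of U) i k) ∂law := by
      show ∫ U, pr β lam U ∂law = _
      conv_lhs => rw [hOr]
      rw [integral_map hmul.aemeasurable (measurable_pr lam).aestronglyMeasurable]
    have i1 : Integrable (fun U => Φ (rot (Matrix.of U) g)) law :=
      Integrable.of_bound (hΦm.comp (hrm.comp measurable_prodMk_left)).aestronglyMeasurable C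
        (ae_of_all _ fun U => by rw [Real.norm_eq_abs]; exact hC _)
    have i2 : Integrable (fun U => pr β lam (fun i k => (Oᵀ * Matrix.of U) i k)) law := by
      have := integrable_pr (β := β) hgood hN lam
      rw [hOr] at this
      exact (integrable_map_measure (measurable_pr lam).aestronglyMeasurable hmul.aemeasurable).1 this
    rw [hLg, ← Real.norm_eq_abs, ← integral_sub i1 i2]
    refine (norm_integral_le_of_norm_le_const (C := e0) (hlaw.1.mono fun U hU => ?_)).trans_eq (by simp)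
    rw [Real.norm_eq_abs]
    set V := Matrix.of U
    have e2 : pr β lam (fun i k => (Oᵀ * V) i k)
        = mpr ((Oᵀ * V)ᵀ * diagonal (fun j => β * lam j) * (Oᵀ * V)) := by
      simp only [pr, mpr, wgt]
      congr 3
      refine Finset.sum_congr rfl fun σ _ => congrArg Real.exp ?_
      rw [qs, Matrix.mul_assoc, ← Matrix.mulVec_mulVec, ← Matrix.mulVec_mulVec, Matrix.dotProduct_mulVec,
        Matrix.vecMul_transpose]
      simp only [dotProduct, Matrix.mulVec_diagonal, Finset.mul_sum, comp2]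
      refine Finset.sum_congr rfl fun i _ => ?_
      simp only [Matrix.mulVec, dotProduct]
      ring
    rw [e2]
    refine (abs_mpr_sub_le hN (e := ∑ k, 1 / (τ * a k)) fun σ => ?_).trans_eq rfl
    set s : Fin N → ℝ := fun i => spin (σ i)
    set u := V *ᵥ s
    have hu : u ⬝ᵥ u = N := by
      rw [← spin_dot σ]
      show (V *ᵥ s) ⬝ᵥ (V *ᵥ s) = s ⬝ᵥ s
      rw [Matrix.dotProduct_mulVec, ← Matrix.mulVec_transpose, Matrix.mulVec_mulVec, hU, Matrix.one_mulVec]
    have hl : qs ((Oᵀ * V)ᵀ * diagonal (fun j => β * lam j) * (Oᵀ * V)) σ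
        = t0 * N + ∑ k, c k * (u ⬝ᵥ (O * lead (m k) * Oᵀ) *ᵥ u) := by
      have hd : diagonal (fun j => β * lam j)
          = t0 • (1 : Matrix (Fin N) (Fin N) ℝ) + ∑ k, c k • lead (m k) := by
        ext i j
        simp only [Matrix.add_apply, Matrix.smul_apply, Matrix.sum_apply, lead, Matrix.diagonal_apply,
          Matrix.one_apply, smul_eq_mul]
        rcases eq_or_ne i j with rfl | hij
        · simp [hlam i]
        · simp [hij]
      rw [qs, Matrix.transpose_mul, Matrix.transpose_transpose]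
      rw [show Vᵀ * O * diagonal (fun j => β * lam j) * (Oᵀ * V)
          = Vᵀ * (O * diagonal (fun j => β * lam j) * Oᵀ) * V by simp only [Matrix.mul_assoc]]
      rw [hd, Matrix.mul_assoc Vᵀ, ← Matrix.mulVec_mulVec, ← Matrix.mulVec_mulVec,
        Matrix.dotProduct_mulVec s, Matrix.vecMul_transpose]
      simp only [Matrix.mul_add, Matrix.add_mul, Matrix.add_mulVec, dotProduct_add, Matrix.mul_sum,
        Matrix.sum_mul, Matrix.sum_mulVec, dotProduct_sum, Matrix.mul_smul, Matrix.smul_mul,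
        Matrix.smul_mulVec, dotProduct_smul, smul_eq_mul, Matrix.mul_one, hO', Matrix.one_mulVec]
      show t0 * (u ⬝ᵥ u) + _ = _
      rw [hu]
    have hr : qs (nest t0 c δ m (rot V g)) σ = t0 * N + ∑ k, c k * (u ⬝ᵥ pdel (δ k) (m k) g *ᵥ u) := by
      simp only [nest, qs, Matrix.add_mulVec, dotProduct_add, Matrix.smul_mulVec, Matrix.one_mulVec,
        dotProduct_smul, smul_eq_mul, spin_dot, Matrix.sum_mulVec, dotProduct_sum, pdel_rot hU]
      congr 1
      refine Finset.sum_congr rfl fun k _ => ?_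
      rw [Matrix.mul_assoc, ← Matrix.mulVec_mulVec, ← Matrix.mulVec_mulVec, Matrix.dotProduct_mulVec,
        Matrix.vecMul_transpose]
    rw [hl, hr, add_sub_add_left_eq_sub, ← Finset.sum_sub_distrib, Finset.sum_mul]
    refine (Finset.abs_sum_le_sum_abs _ _).trans (Finset.sum_le_sum fun k _ => ?_)
    rw [← mul_sub, abs_mul, abs_of_pos (hc k)]
    refine (mul_le_mul_of_nonneg_left (proj_err (ha k) (hwell g hg k) (hδ k) (hm k) hO hO' (hcol (m k)) u)
      (hc k).le).trans (le_of_eq ?_)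
    rw [hu]
    simp only [δ]
    field_simp [(hc k).ne', (ha k).ne', hτ.ne']
  have hψb : ∀ g, |ψ g - L| ≤ e0 + 2 * C * B.indicator (fun _ => (1 : ℝ)) g := fun g => by
    by_cases hg : g ∈ B
    · rw [Set.indicator_of_mem hg, mul_one]
      have h1 : |ψ g| ≤ C := by
        rw [← Real.norm_eq_abs]
        exact (norm_integral_le_of_norm_le_const (C := C) (ae_of_all _ fun U => by
          rw [Real.norm_eq_abs]; exact hC _)).trans_eq (by simp)
      have he0 : 0 ≤ e0 := div_nonneg (Finset.sum_nonneg fun k _ =>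
        (one_div_pos.2 (mul_pos hτ (ha k))).le) (by norm_num)
      linarith [abs_sub (ψ g) L]
    · rw [Set.indicator_of_notMem hg, mul_zero, add_zero]
      exact hkey g hg
  have iψ : Integrable ψ (gs (N * N)) := hI.integral_prod_left
  rw [← hψ]
  calc |∫ g, ψ g ∂gs (N * N) - L| = |∫ g, (ψ g - L) ∂gs (N * N)| := by
        rw [integral_sub iψ (integrable_const L)]; simp
    _ ≤ ∫ g, (e0 + 2 * C * B.indicator (fun _ => (1 : ℝ)) g) ∂gs (N * N) :=
        abs_integral_le_integral_abs.trans (integral_mono (iψ.sub (integrable_const L)).abs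
          ((integrable_const e0).fun_add (((integrable_const (1 : ℝ)).indicator hB).const_mul _)) hψb)
    _ = e0 + (|t0| + ∑ k, c k) * (gs (N * N)).real B := by
        rw [integral_add (integrable_const e0) (((integrable_const (1 : ℝ)).indicator hB).const_mul _),
          integral_const_mul, integral_indicator_const _ hB]
        simp only [C, integral_const, probReal_univ, one_smul, smul_eq_mul, mul_one]; ring

end Vale.Agent.P166.Nested
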