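import Vale.Agent.P166.Nested.Grid
import Vale.Agent.P166.Nested.Invariance
import Vale.Agent.P166.Conc.Limit

/-!
Reduction of the limiting pressure for every compactly supported law to the limits of two Gaussian
vector-spin models.
-/

open MeasureTheory ProbabilityTheory Filter Topology Matrix Finset

namespace Vale.Agent.P166.Nested

open Vale.Agent.P166

/-- Mean free energy per site of the Gaussian vector spins with column fractions `γ`. -/
noncomputable def free {K : ℕ} (τ : ℝ) (f : (Fin K → ℝ) → ℝ) (γ : Fin K → ℝ) (N : ℕ) : ℝ :=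
  1 / (N : ℝ) * ∫ g, Real.log (zf τ f (fun k => ⌊γ k * N⌋₊) g) ∂gs (N * N)

/-- The quadratic potential. -/
noncomputable def quad (c : ℝ) (y : Fin 1 → ℝ) : ℝ := -(c * y 0 ^ 2 / 2)

/-- The two free energies converge. -/
def EngineLimit : Prop :=
  (∀ (K : ℕ) (c γ : Fin K → ℝ) (τ : ℝ), 0 < K → 0 < τ → (∀ k, 0 < c k) →
      (∀ k, γ k ∈ Set.Ioo (0 : ℝ) 1) → ∃ L, Tendsto (free τ (pot c) γ) atTop (𝓝 L)) ∧
    ∀ c γ τ : ℝ, 0 < c → 0 < τ → γ ∈ Set.Ioo (0 : ℝ) 1 →
      ∃ L, Tendsto (free τ (quad c) fun _ => γ) atTop (𝓝 L)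

section

variable {N : ℕ}

theorem integrable_log_quad (hN : 0 < N) {c τ : ℝ} (hc : 0 ≤ c) (hτ : 0 < τ) (m : ℕ) :
    Integrable (fun g => Real.log (zf τ (quad c) (fun _ => m) g)) (gs (N * N)) := by
  have hcont : Continuous fun p : (Fin (N * N) → ℝ) × (Fin 1 → Fin N → ℝ) =>
      Real.exp (∑ i, quad c fun k => (cols m p.1 *ᵥ (√τ • p.2 k)) i) := by
    refine Real.continuous_exp.comp (continuous_finsetSum _ fun i _ => ?_)
    simp only [quad, Matrix.mulVec, dotProduct, cols, mat, Pi.smul_apply, smul_eq_mul]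
    refine (((continuous_finsetSum _ fun b _ => Continuous.mul ?_ (by fun_prop)).pow 2).const_mul c).div_const 2 |>.neg
    split_ifs <;> fun_prop
  have hmeas : Measurable fun g => zf τ (quad c) (fun _ => m) g :=
    hcont.stronglyMeasurable.integral_prod_right'.measurable
  set S : (Fin (N * N) → ℝ) → ℝ := fun g => ∑ i, ∑ b, cols m g i b ^ 2
  have iS : Integrable S (gs (N * N)) := by
    refine integrable_finsetSum _ fun i _ => integrable_finsetSum _ fun b _ => ?_
    simp only [cols]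
    split_ifs
    · simp only [div_pow, mat]
      refine Integrable.div_const ?_ _
      simpa only [pow_two] using
        (Tame.mul (polyB_coord (finProdFinEquiv (b, i))) (polyB_coord (finProdFinEquiv (b, i)))).integrable
          (Set.mem_univ (0 : ℝ))
    · simp
  refine (iS.const_mul (c * τ / 2 * N)).mono' (hmeas.log).aestronglyMeasurable (ae_of_all _ fun g => ?_)
  set π := Measure.pi fun _ : Fin 1 => gs N
  set φ : (Fin 1 → Fin N → ℝ) → ℝ := fun ω => ∑ i, quad c fun k => (cols m g *ᵥ (√τ • ω k)) i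
  have hφ0 : ∀ ω, φ ω ≤ 0 := fun ω => Finset.sum_nonpos fun i _ => by
    simp only [quad]; exact neg_nonpos.2 (by positivity)
  have hφl : ∀ ω, -(c * τ / 2 * S g * ∑ b, ω 0 b ^ 2) ≤ φ ω := fun ω => by
    simp only [φ, quad, S, Finset.mul_sum (a := c * τ / 2), Finset.sum_mul, ← Finset.sum_neg_distrib]
    refine Finset.sum_le_sum fun i _ => ?_
    rw [Finset.sum_neg_distrib, neg_le_neg_iff, ← Finset.sum_mul, ← Finset.mul_sum]
    simp only [Matrix.mulVec_smul, Pi.smul_apply, smul_eq_mul, mul_pow, Real.sq_sqrt hτ.le]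
    have h := Finset.sum_mul_sq_le_sq_mul_sq univ (fun b => cols m g i b) (ω 0)
    have := mul_le_mul_of_nonneg_left h (show 0 ≤ c * τ / 2 by positivity)
    simp only [Matrix.mulVec, dotProduct]
    calc _ = c * τ / 2 * (∑ b, cols m g i b * ω 0 b) ^ 2 := by ring
      _ ≤ _ := this.trans_eq (by ring)
  have hsum : Integrable (fun ω : Fin 1 → Fin N → ℝ => ∑ b, ω 0 b ^ 2) π ∧
      ∫ ω, ∑ b, ω 0 b ^ 2 ∂π = N := by
    have h1 : MeasurePreserving (fun ω : Fin 1 → Fin N → ℝ => ω 0) π (gs N) :=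
      measurePreserving_eval (fun _ : Fin 1 => gs N) 0
    have hi : Integrable (fun v : Fin N → ℝ => ∑ b, v b ^ 2) (gs N) := integrable_finsetSum _ fun b _ => by
      simpa only [pow_two] using (Tame.mul (polyB_coord b) (polyB_coord b)).integrable (Set.mem_univ (0 : ℝ))
    refine ⟨h1.integrable_comp_of_integrable hi, ?_⟩
    rw [← integral_sumsq N]
    conv_rhs => rw [← h1.map_eq]
    rw [integral_map h1.measurable.aemeasurable (by rw [h1.map_eq]; exact hi.aestronglyMeasurable)]
  have hφc : Continuous φ := continuous_finsetSum _ fun i _ => by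
    simp only [quad, Matrix.mulVec, dotProduct, Pi.smul_apply, smul_eq_mul]
    fun_prop
  have iexp : Integrable (fun ω => Real.exp (φ ω)) π :=
    Integrable.of_bound (Real.continuous_exp.comp hφc).aestronglyMeasurable 1 (ae_of_all _ fun ω => by
      rw [Real.norm_eq_abs, abs_of_pos (Real.exp_pos _)]; exact Real.exp_le_one_iff.2 (hφ0 ω))
  have hS0 : 0 ≤ S g := Finset.sum_nonneg fun i _ => Finset.sum_nonneg fun b _ => sq_nonneg _
  set A := c * τ / 2 * S g * (N : ℝ)
  have hlow : Real.exp (-A) ≤ zf τ (quad c) (fun _ => m) g := by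
    have hpt : ∀ ω : Fin 1 → Fin N → ℝ,
        Real.exp (-A) * (1 + (-(c * τ / 2 * S g * ∑ b, ω 0 b ^ 2) + A)) ≤ Real.exp (φ ω) := fun ω => by
      refine le_trans ?_ (Real.exp_le_exp.2 (hφl ω))
      have h := Real.add_one_le_exp (-(c * τ / 2 * S g * ∑ b, ω 0 b ^ 2) + A)
      calc Real.exp (-A) * (1 + (-(c * τ / 2 * S g * ∑ b, ω 0 b ^ 2) + A))
          ≤ Real.exp (-A) * Real.exp (-(c * τ / 2 * S g * ∑ b, ω 0 b ^ 2) + A) :=
            mul_le_mul_of_nonneg_left (by linarith) (Real.exp_pos _).le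
        _ = _ := by rw [← Real.exp_add]; ring_nf
    have i0 : Integrable (fun ω : Fin 1 → Fin N → ℝ => -(c * τ / 2 * S g * ∑ b, ω 0 b ^ 2)) π :=
      (hsum.1.const_mul (c * τ / 2 * S g)).neg
    have i1 : Integrable (fun ω : Fin 1 → Fin N → ℝ => -(c * τ / 2 * S g * ∑ b, ω 0 b ^ 2) + A) π :=
      i0.fun_add (integrable_const _)
    refine le_trans (le_of_eq ?_) (integral_mono (((integrable_const (1 : ℝ)).fun_add i1).const_mul _) iexp hpt)
    rw [integral_const_mul, integral_add (integrable_const _) i1,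
      integral_add i0 (integrable_const _), integral_neg, integral_const_mul, hsum.2]
    simp [A]
  have hup : zf τ (quad c) (fun _ => m) g ≤ 1 :=
    (integral_mono iexp (integrable_const 1) fun ω => Real.exp_le_one_iff.2 (hφ0 ω)).trans_eq (by simp)
  have hpos : 0 < zf τ (quad c) (fun _ => m) g := lt_of_lt_of_le (Real.exp_pos _) hlow
  rw [Real.norm_eq_abs, abs_of_nonpos (Real.log_nonpos hpos.le hup)]
  have h := Real.log_le_log (Real.exp_pos _) hlow
  rw [Real.log_exp] at h
  calc -Real.log (zf τ (quad c) (fun _ => m) g) ≤ A := by linarith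
    _ = _ := by simp only [A]; ring

/-- The mean nested pressure is a combination of the free energies. -/
theorem integral_nest (hN : 0 < N) {K : ℕ} {τ : ℝ} (hτ : 0 < τ) (t0 : ℝ) {c : Fin K → ℝ}
    (hc : ∀ k, 0 < c k) (γ : Fin K → ℝ) :
    ∫ g, mpr (nest t0 c (fun k => 1 / (c k * τ)) (fun k => ⌊γ k * (N : ℝ)⌋₊) g) ∂gs (N * N)
      = t0 / 2 + free τ (pot c) γ N - ∑ k, free τ (quad (c k)) (fun _ => γ k) N := by
  set m : Fin K → ℕ := fun k => ⌊γ k * (N : ℝ)⌋₊
  have hN' : (N : ℝ) ≠ 0 := by exact_mod_cast hN.ne'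
  have iq : ∀ k, Integrable (fun g => Real.log (zf τ (quad (c k)) (fun _ => m k) g)) (gs (N * N)) := fun k =>
    integrable_log_quad hN (hc k).le hτ (m k)
  have he : ∀ g, mpr (nest t0 c (fun k => 1 / (c k * τ)) m g) = t0 / 2 + 1 / (N : ℝ) *
      (Real.log (zf τ (pot c) m g) - ∑ k, Real.log (zf τ (quad (c k)) (fun _ => m k) g)) :=
    fun g => mpr_nest hN hτ t0 hc m g
  have iS := integrable_finsetSum univ fun k (_ : k ∈ univ) => iq k
  have ip : Integrable (fun g => Real.log (zf τ (pot c) m g)) (gs (N * N)) := by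
    refine ((((integrable_mpr_nest hN hτ t0 hc m).sub' (integrable_const (t0 / 2))).const_mul
      (N : ℝ)).fun_add iS).congr (ae_of_all _ fun g => ?_)
    simp only [he]
    field_simp
    ring
  simp only [he]
  have iD : Integrable (fun g => 1 / (N : ℝ) * (Real.log (zf τ (pot c) m g)
      - ∑ k, Real.log (zf τ (quad (c k)) (fun _ => m k) g))) (gs (N * N)) := (ip.sub' iS).const_mul _
  rw [integral_add (integrable_const _) iD, integral_const_mul,
    integral_sub ip iS, integral_finsetSum _ fun k _ => iq k]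
  simp only [free, integral_const, probReal_univ, one_smul, m, ← Finset.mul_sum]
  ring

theorem abs_pr_sub_le (hN : 0 < N) {U : Fin N → Fin N → ℝ} (hU : Good U) {β : ℝ} (hβ : 0 ≤ β)
    {x y : Fin N → ℝ} {h : ℝ} (hxy : ∀ i, |x i - y i| ≤ h) : |pr β x U - pr β y U| ≤ β / 2 * h := by
  have key : ∀ x y : Fin N → ℝ, (∀ i, |x i - y i| ≤ h) → pr β x U - pr β y U ≤ β / 2 * h := fun x y hxy => by
    refine (pr_sub_le hN).trans ?_
    have h1 : ∑ i, (x i - y i) * gib β x U i ≤ h * N := by
      rw [← gib_sum hU (β := β) x, Finset.mul_sum]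
      exact Finset.sum_le_sum fun i _ =>
        mul_le_mul_of_nonneg_right (abs_le.1 (hxy i)).2 (gib_nonneg x U i)
    refine (mul_le_mul_of_nonneg_left h1 (by positivity)).trans (le_of_eq ?_)
    field_simp
  exact abs_le.2 ⟨by linarith [key y x fun i => by rw [abs_sub_comm]; exact hxy i], key x y hxy⟩

end

/-- The mean pressure of the reference spectrum is nearly constant, at every precision. -/
theorem ref_nearly {μ : Measure ℝ} [IsProbabilityMeasure μ] {a b β : ℝ} (hβ : 0 < β)
    (hμ : ∀ᵐ x ∂μ, x ∈ Set.Icc a b) (hH : EngineLimit) {law : ∀ N : ℕ, Measure (Fin N → Fin N → ℝ)}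
    (hp : ∀ N, IsProbabilityMeasure (law N)) (hlaw : ∀ N, LeftInv (law N)) {ε : ℝ} (hε : 0 < ε) :
    ∃ L : ℝ, ∀ᶠ N in atTop, |∫ U, pr β (refSpec μ N) U ∂law N - L| ≤ ε := by
  classical
  obtain ⟨x₀, hx₀⟩ := hμ.exists
  have hab : a ≤ b := hx₀.1.trans hx₀.2
  set h := ε / (2 * β)
  have hh : 0 < h := by positivity
  set n := ⌈(b - a) / h⌉₊
  have hn : b ≤ a + n * h := by
    have := Nat.le_ceil ((b - a) / h)
    rw [div_le_iff₀ hh] at this
    linarith
  set tl : ℕ → ℝ := fun k => μ.real (Set.Ioi (a + (k : ℝ) * h))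
  set s := (range n).filter fun k => 0 < tl k ∧ tl k < 1
  set full := ((range n).filter fun k => tl k = 1).card
  set K := s.card
  set idx : Fin K → ℕ := fun k => (s.equivFin.symm k).1
  set γ : Fin K → ℝ := fun k => tl (idx k)
  have hγ : ∀ k, γ k ∈ Set.Ioo (0 : ℝ) 1 := fun k => (mem_filter.1 (s.equivFin.symm k).2).2
  set c : Fin K → ℝ := fun _ => β * h
  have hc : ∀ k, 0 < c k := fun _ => by positivity
  set t0 := β * (a + h * full)
  choose av Kv hav hKv hwc using fun k => well_cond (hγ k).1.le (hγ k).2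
  set τ := (∑ k, 1 / av k) / ε + 1
  have hS0 : 0 ≤ ∑ k, 1 / av k := Finset.sum_nonneg fun k _ => (one_div_pos.2 (hav k)).le
  have hτ : 0 < τ := by positivity
  obtain ⟨L, hL⟩ : ∃ L, Tendsto (fun N : ℕ => t0 / 2 + free τ (pot c) γ N
      - ∑ k, free τ (quad (c k)) (fun _ => γ k) N) atTop (𝓝 L) := by
    choose Lq hLq using fun k => hH.2 (c k) (γ k) τ (hc k) hτ (hγ k)
    rcases Nat.eq_zero_or_pos K with hK | hK
    · refine ⟨t0 / 2, tendsto_const_nhds.congr' ((eventually_gt_atTop 0).mono fun N hN => ?_)⟩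
      have : IsEmpty (Fin K) := by rw [hK]; infer_instance
      have h0 : free τ (pot c) γ N = 0 := by
        simp [free, zf, pot, Real.cosh_zero, probReal_univ]
      simp [h0]
    · obtain ⟨Lp, hLp⟩ := hH.1 K c γ τ hK hτ hc hγ
      exact ⟨_, (hLp.const_add (t0 / 2)).sub (tendsto_finsetSum _ fun k _ => hLq k)⟩
  refine ⟨L, ?_⟩
  have hexp : Tendsto (fun N : ℕ => (|t0| + ∑ k, c k) * (K * (2 * (1 / 2 : ℝ) ^ N))) atTop (𝓝 0) := by
    simpa using (((tendsto_pow_atTop_nhds_zero_of_lt_one (show (0 : ℝ) ≤ 1 / 2 by norm_num)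
      (by norm_num)).const_mul 2).const_mul (K : ℝ)).const_mul (|t0| + ∑ k, c k)
  filter_upwards [eventually_gt_atTop 0, hexp.eventually (gt_mem_nhds (show 0 < ε / 8 by positivity)),
    hL.eventually (Metric.ball_mem_nhds _ (show 0 < ε / 8 by positivity))] with N hN hsmall hball
  simp only [Metric.mem_ball, Real.dist_eq] at hball
  have hN' : (0 : ℝ) < N := by exact_mod_cast hN
  have := hp N
  set m : Fin K → ℕ := fun k => ⌊γ k * (N : ℝ)⌋₊
  have hm1 : ∀ k, (m k : ℝ) ≤ γ k * N := fun k => Nat.floor_le (mul_nonneg (hγ k).1.le hN'.le)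
  choose B hBm hBp hBw using fun k => hwc k N (m k) hN (hm1 k)
  have hlam : ∀ j : Fin N, β * stepSpec μ a h n N j = t0 + ∑ k, c k * (if (j : ℕ) < m k then 1 else 0) := by
    intro j
    have e1 : ∑ k ∈ range n, (if (j : ℕ) < above μ N (a + k * h) then (1 : ℝ) else 0)
        = full + ∑ k : Fin K, (if (j : ℕ) < m k then (1 : ℝ) else 0) := by
      have e2 : ∑ k : Fin K, (if (j : ℕ) < m k then (1 : ℝ) else 0)
          = ∑ k ∈ s, (if (j : ℕ) < above μ N (a + k * h) then (1 : ℝ) else 0) := by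
        rw [← Finset.sum_coe_sort s, ← s.equivFin.symm.sum_comp]
        rfl
      have e3 : (full : ℝ) = ∑ k ∈ (range n).filter (fun k => ¬(0 < tl k ∧ tl k < 1)),
          (if (j : ℕ) < above μ N (a + k * h) then (1 : ℝ) else 0) := by
        simp only [full]
        rw [← Finset.sum_boole, Finset.sum_filter]
        refine Finset.sum_congr rfl fun k _ => ?_
        have ht : 0 ≤ tl k ∧ tl k ≤ 1 := ⟨measureReal_nonneg, measureReal_le_one⟩
        by_cases h1 : tl k = 1
        · rw [if_pos h1, if_pos (fun hh' => absurd h1 hh'.2.ne), if_pos]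
          show (j : ℕ) < ⌊tl k * N⌋₊
          rw [h1, one_mul, Nat.floor_natCast]
          exact j.2
        · rw [if_neg h1]
          by_cases h0 : tl k = 0
          · rw [if_pos (fun hh' => absurd h0 hh'.1.ne'), if_neg]
            show ¬(j : ℕ) < ⌊tl k * N⌋₊
            simp [h0]
          · rw [if_neg (not_not.2 ⟨lt_of_le_of_ne ht.1 (Ne.symm h0), lt_of_le_of_ne ht.2 h1⟩)]
      rw [e2, e3, add_comm, Finset.sum_filter_add_sum_filter_not]
    simp only [stepSpec, e1, t0, c, ← Finset.mul_sum]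
    ring
  set Bu : Set (Fin (N * N) → ℝ) := ⋃ k, B k
  have hBu : (gs (N * N)).real Bu ≤ K * (2 * (1 / 2 : ℝ) ^ N) :=
    (measureReal_iUnion_fintype_le _).trans ((Finset.sum_le_sum fun k _ => hBp k).trans_eq (by simp))
  have hclose := nest_close hN (hlaw N) hτ hc
    (fun k => (Nat.floor_le_of_le (mul_le_of_le_one_left hN'.le (hγ k).2.le) : m k ≤ N)) hlam hav
    (MeasurableSet.iUnion hBm) (fun g hg k => hBw k g fun hk => hg (Set.mem_iUnion.2 ⟨k, hk⟩))
  rw [integral_nest hN hτ t0 hc γ] at hclose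
  have hτe : (∑ k, 1 / (τ * av k)) / 2 ≤ ε / 2 := by
    have e : ∑ k, 1 / (τ * av k) = (∑ k, 1 / av k) / τ := by
      rw [Finset.sum_div]; exact Finset.sum_congr rfl fun k _ => by field_simp
    rw [e, div_le_div_iff_of_pos_right (by norm_num : (0 : ℝ) < 2), div_le_iff₀ hτ]
    simp only [τ]
    rw [mul_add, mul_div_cancel₀ _ hε.ne']
    linarith
  have hgood : ∀ᵐ U ∂law N, Good U := (hlaw N).1.mono fun U hU => good_of_orth hU
  have hstep : |∫ U, pr β (refSpec μ N) U ∂law N - ∫ U, pr β (stepSpec μ a h n N) U ∂law N| ≤ ε / 4 := by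
    rw [← integral_sub (integrable_pr hgood hN _) (integrable_pr hgood hN _), ← Real.norm_eq_abs]
    refine (norm_integral_le_of_norm_le_const (C := β / 2 * h) (hgood.mono fun U hU => ?_)).trans_eq ?_
    · rw [Real.norm_eq_abs]
      exact abs_pr_sub_le hN hU hβ.le fun j => by rw [abs_sub_comm]; exact stepSpec_close hμ hh.le hn j
    · simp [h]; field_simp; ring
  have hB' := (mul_le_mul_of_nonneg_left hBu (add_nonneg (abs_nonneg t0)
    (Finset.sum_nonneg fun k _ => (hc k).le))).trans hsmall.le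
  have := abs_le.1 hclose
  have := abs_le.1 hstep
  have := abs_lt.1 hball
  exact abs_le.2 ⟨by linarith, by linarith⟩

/-- Convergence of the two engine free energies gives the limiting pressure for every compactly
supported law. -/
theorem limit_of_engine (hH : EngineLimit) (μ : Measure ℝ) [IsProbabilityMeasure μ] {a b β : ℝ}
    (hμ : ∀ᵐ x ∂μ, x ∈ Set.Icc a b) (he : ∀ η, 0 < η → 0 < μ (Set.Ioi (b - η))) (hβ : 0 ≤ β) :
    ∃ L : ℝ, ∀ (law : ∀ N : ℕ, Measure (Fin N → Fin N → ℝ)),
      (∀ N, IsProbabilityMeasure (law N)) → (∀ N, LeftInv (law N)) →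
      ∀ (R : ℝ) (lam : ∀ N : ℕ, Fin N → ℝ), Spec μ b R lam →
        Tendsto (fun N => ∫ U, (pr β (lam N) U - L) ^ 2 ∂law N) atTop (𝓝 0) := by
  classical
  rcases hβ.eq_or_lt with hβ0 | hβ0
  · refine ⟨0, fun law hp hlaw R lam _ => ?_⟩
    have : ∀ N U, pr β (lam N) U = 0 := fun N U => by simp [pr, wgt, ← hβ0]
    simp [this]
  by_cases hex : ∃ law : ∀ N : ℕ, Measure (Fin N → Fin N → ℝ),
      (∀ N, IsProbabilityMeasure (law N)) ∧ ∀ N, LeftInv (law N)
  swap
  · exact ⟨0, fun law hp hlaw => absurd ⟨law, hp, hlaw⟩ hex⟩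
  obtain ⟨law₀, hp₀, hlaw₀⟩ := hex
  set u : ℕ → ℝ := fun N => ∫ U, pr β (refSpec μ N) U ∂law₀ N
  have hcauchy : CauchySeq u := by
    rw [Metric.cauchySeq_iff]
    intro ε hε
    obtain ⟨L, hL⟩ := ref_nearly hβ0 hμ hH hp₀ hlaw₀ (show 0 < ε / 3 by positivity)
    obtain ⟨N₀, hN₀⟩ := eventually_atTop.1 hL
    refine ⟨N₀, fun i hi j hj => ?_⟩
    have := abs_le.1 (hN₀ i hi)
    have := abs_le.1 (hN₀ j hj)
    rw [Real.dist_eq, abs_lt]
    simp only [u]
    constructor <;> linarith
  obtain ⟨L, hL⟩ := cauchySeq_tendsto_of_complete hcauchy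
  obtain ⟨A, hA⟩ := deterministic_equivalent μ b β hβ he
  have hgood : ∀ N, ∀ᵐ U ∂law₀ N, Good U := fun N => (hlaw₀ N).1.mono fun U hU => good_of_orth hU
  have hAr := hA law₀ hp₀ hlaw₀ (-a) _ (refSpec_admissible hμ)
  have hlim : Tendsto A atTop (𝓝 L) := by
    refine tendsto_of_tendsto_of_dist hL (squeeze_zero' (Eventually.of_forall fun N => dist_nonneg)
      ?_ (by simpa using hAr.sqrt))
    filter_upwards [eventually_gt_atTop 0] with N hN
    have := hp₀ N
    have i1 := integrable_pr (β := β) (hgood N) hN (refSpec μ N)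
    rw [Real.dist_eq]
    refine Real.abs_le_sqrt ?_
    have hJ := (even_two.convexOn_pow (𝕜 := ℝ)).map_integral_le (μ := law₀ N)
      (f := fun U => pr β (refSpec μ N) U - A N) (by fun_prop) isClosed_univ
      (ae_of_all _ fun _ => Set.mem_univ _) (i1.sub' (integrable_const _))
      (Integrable.of_bound (((measurable_pr (refSpec μ N)).sub_const (A N)).pow_const 2).aestronglyMeasurable
        ((|β| / 2 * (∑ i, |refSpec μ N i|) + |A N|) ^ 2) ((hgood N).mono fun U hU => by
          simp only [Function.comp_apply]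
          rw [Real.norm_eq_abs, abs_pow]
          exact pow_le_pow_left₀ (abs_nonneg _) ((abs_sub _ _).trans (add_le_add (abs_pr_le hN hU fun i =>
            single_le_sum (f := fun j => |refSpec μ N j|) (fun j _ => abs_nonneg _) (mem_univ i)) le_rfl)) 2))
    rw [integral_sub i1 (integrable_const _)] at hJ
    simpa [u] using hJ
  refine ⟨L, fun law hp hlaw R lam hlam => ?_⟩
  have h1 := hA law hp hlaw R lam hlam
  have h2 : Tendsto (fun N => 2 * (A N - L) ^ 2) atTop (𝓝 0) := by
    simpa using ((hlim.sub_const L).pow 2).const_mul (2 : ℝ)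
  refine squeeze_zero' (Eventually.of_forall fun N => integral_nonneg fun U => sq_nonneg _) ?_
    (by simpa using (h1.const_mul 2).add h2)
  filter_upwards [eventually_gt_atTop 0] with N hN
  have := hp N
  have hg : ∀ᵐ U ∂law N, Good U := (hlaw N).1.mono fun U hU => good_of_orth hU
  have isq : ∀ x : ℝ, Integrable (fun U => (pr β (lam N) U - x) ^ 2) (law N) := fun x => by
    refine Integrable.of_bound (((measurable_pr (lam N)).sub_const x).pow_const 2).aestronglyMeasurable
      ((|β| / 2 * (∑ i, |lam N i|) + |x|) ^ 2) (hg.mono fun U hU => ?_)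
    rw [Real.norm_eq_abs, abs_pow]
    exact pow_le_pow_left₀ (abs_nonneg _) ((abs_sub _ _).trans (add_le_add (abs_pr_le hN hU fun i =>
      single_le_sum (f := fun j => |lam N j|) (fun j _ => abs_nonneg _) (mem_univ i)) le_rfl)) 2
  refine (integral_mono (isq L) (((isq (A N)).const_mul 2).fun_add (integrable_const (2 * (A N - L) ^ 2)))
    fun U => ?_).trans_eq ?_
  · nlinarith [sq_nonneg (pr β (lam N) U - A N - (A N - L))]
  · rw [integral_add ((isq (A N)).const_mul 2) (integrable_const _), integral_const_mul]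
    simp

end Vale.Agent.P166.Nested
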