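import Vale.Agent.P166.MP

/-!
Regularised nested projections of a Gaussian matrix: basic objects.
-/

open MeasureTheory Matrix Finset

namespace Vale.Agent.P166.Nested

open Vale.Agent.P166

variable {N : ℕ}

/-- The first `m` columns of `mat g`ᵀ`/√N`, padded with zero columns. -/
noncomputable def cols (m : ℕ) (g : Fin (N * N) → ℝ) : Matrix (Fin N) (Fin N) ℝ :=
  fun i a => if (a : ℕ) < m then mat g a i / √(N : ℝ) else 0

/-- Regularised projection on the column space of `cols m g`. -/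
noncomputable def pdel (δ : ℝ) (m : ℕ) (g : Fin (N * N) → ℝ) : Matrix (Fin N) (Fin N) ℝ :=
  cols m g * ((cols m g)ᵀ * cols m g + δ • 1)⁻¹ * (cols m g)ᵀ

/-- Quadratic form at a configuration. -/
noncomputable def qs (A : Matrix (Fin N) (Fin N) ℝ) (σ : Fin N → Bool) : ℝ :=
  (fun i => spin (σ i)) ⬝ᵥ A *ᵥ fun i => spin (σ i)

/-- Pressure of a coupling matrix, inverse temperature absorbed. -/
noncomputable def mpr (A : Matrix (Fin N) (Fin N) ℝ) : ℝ :=
  1 / (N : ℝ) * Real.log (((2 : ℝ) ^ N)⁻¹ * ∑ σ, Real.exp (1 / 2 * qs A σ))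

/-- The nested coupling matrix with shift `t0`, jumps `c` and column numbers `m`. -/
noncomputable def nest {K : ℕ} (t0 : ℝ) (c δ : Fin K → ℝ) (m : Fin K → ℕ)
    (g : Fin (N * N) → ℝ) : Matrix (Fin N) (Fin N) ℝ :=
  t0 • 1 + ∑ k, c k • pdel (δ k) (m k) g

/-- Well conditioned columns. -/
def WellCond (a K : ℝ) (m : ℕ) (g : Fin (N * N) → ℝ) : Prop :=
  ∀ w : Fin N → ℝ, (∀ b : Fin N, ¬(b : ℕ) < m → w b = 0) →
    a * ∑ b, w b ^ 2 ≤ ∑ i, (cols m g *ᵥ w) i ^ 2 ∧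
      ∑ i, (cols m g *ᵥ w) i ^ 2 ≤ K * ∑ b, w b ^ 2

end Vale.Agent.P166.Nested
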