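import Vale.Agent.P166.Conc.Bud
import Vale.Agent.P166.Rot

/-!
A Gaussian integral of the exponential of a concave quadratic.
-/

open MeasureTheory ProbabilityTheory Filter Topology Matrix Finset

namespace Vale.Agent.P166.Nested

open Vale.Agent.P166

variable {N : ℕ}

theorem integral_exp_quad_one {a : ℝ} (ha : 0 ≤ a) (β : ℝ) :
    Integrable (fun x => Real.exp (β * x - a * x ^ 2 / 2)) (gaussianReal 0 1) ∧
    ∫ x, Real.exp (β * x - a * x ^ 2 / 2) ∂gaussianReal 0 1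
      = (√(1 + a))⁻¹ * Real.exp (β ^ 2 / (2 * (1 + a))) := by
  set m := β / (1 + a) with hm
  have ha1 : 0 < 1 + a := by linarith
  have e : ∀ x : ℝ, gaussianPDFReal 0 1 x * Real.exp (β * x - a * x ^ 2 / 2)
      = (√(2 * Real.pi))⁻¹ * Real.exp (β ^ 2 / (2 * (1 + a))) *
        Real.exp (-((1 + a) / 2) * (x - m) ^ 2) := fun x => by
    simp only [gaussianPDFReal_def, NNReal.coe_one, mul_one, sub_zero, mul_assoc, ← Real.exp_add]
    congr 2
    rw [hm]; field_simp; ring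
  have hI : Integrable (fun x : ℝ => Real.exp (-((1 + a) / 2) * (x - m) ^ 2)) volume :=
    (integrable_exp_neg_mul_sq (by linarith)).comp_sub_right m
  constructor
  · rw [gaussianReal_of_var_ne_zero 0 one_ne_zero, integrable_withDensity_iff_integrable_smul'
      (measurable_gaussianPDF 0 1) (ae_of_all _ fun x => gaussianPDF_lt_top)]
    simp only [toReal_gaussianPDF, smul_eq_mul, e]
    exact hI.const_mul _
  · rw [integral_gaussianReal_eq_integral_smul one_ne_zero]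
    simp only [smul_eq_mul, e]
    rw [integral_const_mul, integral_sub_right_eq_self (fun x : ℝ => Real.exp (-((1 + a) / 2) * x ^ 2)) m,
      integral_gaussian, mul_assoc, mul_comm (Real.exp _), ← mul_assoc, ← Real.sqrt_inv,
      ← Real.sqrt_mul (by positivity), ← Real.sqrt_inv]
    congr 2
    field_simp

theorem measurePreserving_orth {Q : Matrix (Fin N) (Fin N) ℝ} (hQ : Qᵀ * Q = 1) :
    MeasurePreserving (fun g : Fin N → ℝ => Q *ᵥ g) (gs N) (gs N) := by
  let T : EuclideanSpace ℝ (Fin N) →ₗ[ℝ] EuclideanSpace ℝ (Fin N) :=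
    { toFun := fun x => WithLp.toLp 2 (Q *ᵥ x.ofLp)
      map_add' := fun x y => by simp [Matrix.mulVec_add]
      map_smul' := fun c x => by simp [Matrix.mulVec_smul] }
  have hnorm : ∀ x, ‖T x‖ = ‖x‖ := fun x => by
    rw [EuclideanSpace.norm_eq, EuclideanSpace.norm_eq]
    simp only [Real.norm_eq_abs, sq_abs]
    congr 1
    have h : (Q *ᵥ x.ofLp) ⬝ᵥ (Q *ᵥ x.ofLp) = x.ofLp ⬝ᵥ x.ofLp := by
      rw [Matrix.dotProduct_mulVec, ← Matrix.mulVec_transpose, Matrix.mulVec_mulVec, hQ, Matrix.one_mulVec]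
    show ∑ i, (Q *ᵥ x.ofLp) i ^ 2 = ∑ i, x.ofLp i ^ 2
    simpa [dotProduct, pow_two] using h
  let F := ({ toLinearMap := T, norm_map' := hnorm } :
    EuclideanSpace ℝ (Fin N) →ₗᵢ[ℝ] EuclideanSpace ℝ (Fin N)).toLinearIsometryEquiv rfl
  have hF : ∀ g : Fin N → ℝ, F (WithLp.toLp 2 g) = WithLp.toLp 2 (Q *ᵥ g) := fun g => rfl
  have hm : Measurable fun g : Fin N → ℝ => Q *ᵥ g := by
    refine measurable_pi_lambda _ fun j => ?_
    simp only [Matrix.mulVec, dotProduct]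
    fun_prop
  refine ⟨hm, ?_⟩
  have h := stdGaussian_map F
  rw [← map_pi_eq_stdGaussian, Measure.map_map (by fun_prop) (by fun_prop)] at h
  have e2 : (F ∘ WithLp.toLp 2) = (WithLp.toLp 2 ∘ fun g : Fin N → ℝ => Q *ᵥ g) := funext hF
  rw [e2, ← Measure.map_map (by fun_prop) hm] at h
  exact (MeasurableEquiv.toLp 2 (Fin N → ℝ)).map_measurableEquiv_injective h

/-- The Gaussian integral of `exp (b·g - g·Ag/2)` is a positive factor, independent of `b`, times
`exp (b·(1+A)⁻¹b/2)`. -/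
theorem integral_exp_quad (A : Matrix (Fin N) (Fin N) ℝ) (hA : Aᵀ = A)
    (hpsd : ∀ v : Fin N → ℝ, 0 ≤ v ⬝ᵥ A *ᵥ v) :
    ∃ D : ℝ, 0 < D ∧ ∀ b : Fin N → ℝ,
      Integrable (fun g => Real.exp (b ⬝ᵥ g - g ⬝ᵥ A *ᵥ g / 2)) (gs N) ∧
      ∫ g, Real.exp (b ⬝ᵥ g - g ⬝ᵥ A *ᵥ g / 2) ∂gs N
        = D * Real.exp (b ⬝ᵥ (1 + A)⁻¹ *ᵥ b / 2) := by
  obtain ⟨Q, x, hQ, hQ', hd, hx⟩ := sym_spectral A hA
  have hx0 : ∀ j, 0 ≤ x j := fun j => by
    rw [hx j]
    refine le_of_le_of_eq (hpsd fun k => Q j k) ?_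
    simp only [Matrix.mul_apply, Matrix.transpose_apply, dotProduct, Matrix.mulVec, Finset.sum_mul,
      Finset.mul_sum]
    rw [Finset.sum_comm]
    exact Finset.sum_congr rfl fun i _ => Finset.sum_congr rfl fun k _ => by ring
  refine ⟨∏ j, (√(1 + x j))⁻¹, Finset.prod_pos fun j _ => inv_pos.2 (Real.sqrt_pos.2 (by linarith [hx0 j])),
    fun b => ?_⟩
  have hmp := measurePreserving_orth (Q := Qᵀ) (by rw [Matrix.transpose_transpose]; exact hQ')
  set β := Q *ᵥ b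
  have key : ∀ y : Fin N → ℝ, Real.exp (b ⬝ᵥ (Qᵀ *ᵥ y) - (Qᵀ *ᵥ y) ⬝ᵥ A *ᵥ (Qᵀ *ᵥ y) / 2)
      = ∏ j, Real.exp (β j * y j - x j * y j ^ 2 / 2) := fun y => by
    rw [← Real.exp_sum]
    congr 1
    have e1 : b ⬝ᵥ (Qᵀ *ᵥ y) = β ⬝ᵥ y := by
      rw [Matrix.dotProduct_mulVec, Matrix.vecMul_transpose]
    have e2 : (Qᵀ *ᵥ y) ⬝ᵥ A *ᵥ (Qᵀ *ᵥ y) = ∑ j, x j * y j ^ 2 := by
      rw [Matrix.mulVec_mulVec, hd, Matrix.mul_assoc, hQ', Matrix.mul_one, ← Matrix.mulVec_mulVec,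
        Matrix.dotProduct_mulVec, ← Matrix.mulVec_transpose, Matrix.transpose_transpose,
        Matrix.mulVec_mulVec, hQ', Matrix.one_mulVec]
      simp only [dotProduct, Matrix.mulVec_diagonal]
      exact Finset.sum_congr rfl fun j _ => by ring
    rw [e1, e2, Finset.sum_sub_distrib, Finset.sum_div]
    rfl
  have hI : Integrable (fun y : Fin N → ℝ => ∏ j, Real.exp (β j * y j - x j * y j ^ 2 / 2)) (gs N) :=
    Integrable.fintype_prod fun j => (integral_exp_quad_one (hx0 j) (β j)).1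
  have hinv : (1 + A)⁻¹ = Qᵀ * diagonal (fun j => (1 + x j)⁻¹) * Q := by
    have e1 : 1 + A = Qᵀ * diagonal (fun j => 1 + x j) * Q := by
      rw [show diagonal (fun j => 1 + x j) = (1 : Matrix (Fin N) (Fin N) ℝ) + diagonal x by
        rw [← Matrix.diagonal_one, Matrix.diagonal_add], Matrix.mul_add, Matrix.add_mul, Matrix.mul_one,
        hQ, ← hd]
    refine Matrix.inv_eq_right_inv ?_
    rw [e1, Matrix.mul_assoc, ← Matrix.mul_assoc Q, ← Matrix.mul_assoc Q, hQ', Matrix.one_mul,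
      ← Matrix.mul_assoc, Matrix.mul_assoc Qᵀ, Matrix.diagonal_mul_diagonal,
      show (fun j => (1 + x j) * (1 + x j)⁻¹) = fun _ => (1 : ℝ) from
        funext fun j => mul_inv_cancel₀ (by linarith [hx0 j]),
      Matrix.diagonal_one, Matrix.mul_one, hQ]
  have hF : AEStronglyMeasurable (fun g : Fin N → ℝ => Real.exp (b ⬝ᵥ g - g ⬝ᵥ A *ᵥ g / 2)) (gs N) := by
    refine Continuous.aestronglyMeasurable ?_
    simp only [dotProduct, Matrix.mulVec]
    fun_prop
  have hint : Integrable (fun g => Real.exp (b ⬝ᵥ g - g ⬝ᵥ A *ᵥ g / 2)) (gs N) := by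
    rw [← hmp.integrable_comp hF]
    exact hI.congr (ae_of_all _ fun y => (key y).symm)
  refine ⟨hint, ?_⟩
  conv_lhs => rw [← hmp.map_eq]
  rw [integral_map hmp.measurable.aemeasurable (by rw [hmp.map_eq]; exact hF)]
  simp only [key]
  rw [gs, integral_fintype_prod_eq_prod (f := fun j (t : ℝ) => Real.exp (β j * t - x j * t ^ 2 / 2))]
  simp only [(integral_exp_quad_one (hx0 _) (β _)).2]
  rw [Finset.prod_mul_distrib, ← Real.exp_sum]
  congr 2
  rw [hinv, ← Matrix.mulVec_mulVec, ← Matrix.mulVec_mulVec, Matrix.dotProduct_mulVec,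
    Matrix.vecMul_transpose]
  simp only [dotProduct, Matrix.mulVec_diagonal, Finset.sum_div]
  refine Finset.sum_congr rfl fun j _ => ?_
  have : 1 + x j ≠ 0 := by linarith [hx0 j]
  field_simp
  rfl

end Vale.Agent.P166.Nested
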