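import Vale.Agent.P166.Spectral

/-!
An admissible spectrum for a given law, uniformly close to step spectra with column counts `⌊γN⌋`.
-/

open MeasureTheory Filter Topology Finset

namespace Vale.Agent.P166.Nested

open Vale.Agent.P166

/-- Number of eigenvalues above `t`. -/
noncomputable def above (μ : Measure ℝ) (N : ℕ) (t : ℝ) : ℕ := ⌊μ.real (Set.Ioi t) * N⌋₊

/-- The reference spectrum. -/
noncomputable def refSpec (μ : Measure ℝ) (N : ℕ) (j : Fin N) : ℝ := sInf {t | above μ N t ≤ j}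

/-- The step spectrum with grid `a + k h`, `k < n`. -/
noncomputable def stepSpec (μ : Measure ℝ) (a h : ℝ) (n N : ℕ) (j : Fin N) : ℝ :=
  a + h * ∑ k ∈ range n, if (j : ℕ) < above μ N (a + k * h) then 1 else 0

/-- A downward closed predicate below `n` is true exactly below some `d`. -/
theorem exists_cut_index (n : ℕ) (P : ℕ → Prop) (hP : ∀ k l, k ≤ l → l < n → P l → P k) :
    ∃ d ≤ n, ∀ k < n, (P k ↔ k < d) := by
  classical
  by_cases h : ∃ k, k < n ∧ ¬P k
  · refine ⟨Nat.find h, (Nat.find_spec h).1.le, fun k hk => ⟨fun hPk => ?_, fun hlt => ?_⟩⟩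
    · by_contra hc
      exact (Nat.find_spec h).2 (hP _ k (not_lt.1 hc) hk hPk)
    · by_contra hPk
      exact Nat.find_min h hlt ⟨hk, hPk⟩
  · exact ⟨n, le_rfl, fun k hk => ⟨fun _ => hk, fun _ => by_contra fun hc => h ⟨k, hk, hc⟩⟩⟩

theorem sum_cut {n d : ℕ} (hd : d ≤ n) (P : ℕ → Prop) [DecidablePred P] (hP : ∀ k < n, (P k ↔ k < d))
    (u : ℕ → ℝ) : ∑ k ∈ range n, (if P k then u k else 0) = ∑ k ∈ range d, u k := by
  rw [← sum_filter]
  refine sum_congr (ext fun k => ?_) fun _ _ => rfl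
  simp only [mem_filter, mem_range]
  exact ⟨fun h => (hP k h.1).1 h.2, fun h => ⟨lt_of_lt_of_le h hd, (hP k (lt_of_lt_of_le h hd)).2 h⟩⟩

section

variable {μ : Measure ℝ} [IsProbabilityMeasure μ] {a b h : ℝ} {n N : ℕ}

theorem above_anti (N : ℕ) : Antitone (above μ N) := fun _ _ hst =>
  Nat.floor_mono (mul_le_mul_of_nonneg_right (measureReal_mono (Set.Ioi_subset_Ioi hst)) (Nat.cast_nonneg N))

theorem above_le (N : ℕ) (t : ℝ) : above μ N t ≤ N :=
  Nat.floor_le_of_le (mul_le_of_le_one_left (Nat.cast_nonneg N) measureReal_le_one)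

theorem above_top (hμ : ∀ᵐ x ∂μ, x ∈ Set.Icc a b) (N : ℕ) {t : ℝ} (ht : b ≤ t) : above μ N t = 0 := by
  have : μ.real (Set.Ioi t) = 0 := by
    have h0 : μ (Set.Ioi t) = 0 := measure_mono_null
      (fun x (hx : t < x) => fun h => absurd h.2 (not_le.2 (lt_of_le_of_lt ht hx))) (ae_iff.1 hμ)
    rw [measureReal_def, h0]
    rfl
  simp [above, this]

theorem above_bot (hμ : ∀ᵐ x ∂μ, x ∈ Set.Icc a b) (N : ℕ) {t : ℝ} (ht : t < a) : above μ N t = N := by
  have : μ.real (Set.Ioi t) = 1 := by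
    have h0 : μ (Set.Ioi t)ᶜ = 0 := measure_mono_null (fun x (hx : x ∉ Set.Ioi t) => fun h =>
      hx (lt_of_lt_of_le ht h.1)) (ae_iff.1 hμ)
    rw [measureReal_def, (prob_compl_eq_zero_iff measurableSet_Ioi).1 h0]
    rfl
  simp [above, this]

theorem refSpec_spec (hμ : ∀ᵐ x ∂μ, x ∈ Set.Icc a b) (j : Fin N) :
    refSpec μ N j ∈ Set.Icc a b ∧ (∀ t, above μ N t ≤ j → refSpec μ N j ≤ t) ∧
      ∀ t, (j : ℕ) < above μ N t → t ≤ refSpec μ N j := by
  have hne : b ∈ {t | above μ N t ≤ j} := by simp [above_top hμ N le_rfl]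
  have hlow : ∀ t ∈ {t | above μ N t ≤ j}, a ≤ t := fun t (ht : above μ N t ≤ j) => by
    by_contra hc
    rw [above_bot hμ N (not_le.1 hc)] at ht
    exact absurd ht (not_le.2 j.2)
  have hb : BddBelow {t | above μ N t ≤ j} := ⟨a, hlow⟩
  refine ⟨⟨le_csInf ⟨b, hne⟩ hlow, csInf_le hb hne⟩, fun t ht => csInf_le hb ht, fun t ht => ?_⟩
  refine le_csInf ⟨b, hne⟩ fun s (hs : above μ N s ≤ j) => ?_
  by_contra hc
  exact absurd ((above_anti N (not_le.1 hc).le).trans hs) (not_le.2 ht)

theorem step_close_aux (hh : 0 ≤ h) {y : ℝ} (hy : a ≤ y) (hy' : y ≤ a + n * h) (P : ℕ → Prop)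
    [DecidablePred P] (hP : ∀ k l, k ≤ l → l < n → P l → P k) (h1 : ∀ k < n, P k → a + k * h ≤ y)
    (h2 : ∀ k < n, ¬P k → y ≤ a + k * h) :
    |a + h * ∑ k ∈ range n, (if P k then (1 : ℝ) else 0) - y| ≤ h := by
  obtain ⟨d, hd, hdP⟩ := exists_cut_index n P hP
  rw [sum_cut hd P hdP fun _ => (1 : ℝ), sum_const, card_range, nsmul_eq_mul, mul_one, abs_le]
  constructor
  · have hup : y ≤ a + d * h := by
      rcases hd.eq_or_lt with he | hlt
      · rw [he]; exact hy'
      · exact h2 d hlt fun hc => lt_irrefl d ((hdP d hlt).1 hc)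
    linarith [mul_comm (d : ℝ) h]
  · rcases Nat.eq_zero_or_pos d with he | hpos
    · subst he; simp; linarith
    · have hlt : d - 1 < n := by omega
      have := h1 (d - 1) hlt ((hdP _ hlt).2 (by omega))
      rw [Nat.cast_sub hpos, Nat.cast_one] at this
      linarith [mul_comm (d : ℝ) h]

theorem stepSpec_close (hμ : ∀ᵐ x ∂μ, x ∈ Set.Icc a b) (hh : 0 ≤ h) (hn : b ≤ a + n * h) (j : Fin N) :
    |stepSpec μ a h n N j - refSpec μ N j| ≤ h := by
  obtain ⟨hI, hle, hge⟩ := refSpec_spec hμ j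
  exact step_close_aux hh hI.1 (hI.2.trans hn) _
    (fun k l hkl _ hl => lt_of_lt_of_le hl (above_anti N (by
      have : (k : ℝ) * h ≤ l * h := mul_le_mul_of_nonneg_right (by exact_mod_cast hkl) hh
      linarith)))
    (fun k _ hk => hge _ hk) fun k _ hk => hle _ (not_lt.1 hk)

theorem refSpec_empTo (hμ : ∀ᵐ x ∂μ, x ∈ Set.Icc a b) : EmpTo μ (refSpec μ) := by
  intro f hf ⟨B, hB⟩
  rw [Metric.tendsto_nhds]
  intro ε hε
  obtain ⟨x₀, hx₀⟩ := hμ.exists
  have hab : a ≤ b := hx₀.1.trans hx₀.2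
  obtain ⟨η, hη, huc⟩ := Metric.uniformContinuousOn_iff.1
    ((isCompact_Icc (a := a - 1) (b := b + 1)).uniformContinuousOn_of_continuous hf.continuousOn) (ε / 4)
    (by positivity)
  set h := min (η / 2) 1
  have hh : 0 < h := lt_min (by positivity) one_pos
  have hh1 : h ≤ 1 := min_le_right _ _
  have hhη : h < η := lt_of_le_of_lt (min_le_left _ _) (by linarith)
  set n := ⌈(b - a) / h⌉₊
  have hn : b ≤ a + n * h := by
    have := Nat.le_ceil ((b - a) / h)
    rw [div_le_iff₀ hh] at this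
    linarith
  set u : ℕ → ℝ := fun k => f (a + ((k : ℝ) + 1) * h) - f (a + k * h)
  have htel : ∀ (P : ℕ → Prop) [DecidablePred P], (∀ k l, k ≤ l → l < n → P l → P k) →
      f (a + h * ∑ k ∈ range n, (if P k then (1 : ℝ) else 0)) = f a + ∑ k ∈ range n, if P k then u k else 0 := by
    intro P _ hP
    obtain ⟨d, hd, hdP⟩ := exists_cut_index n P hP
    rw [sum_cut hd P hdP u, sum_cut hd P hdP fun _ => (1 : ℝ), sum_const, card_range, nsmul_eq_mul, mul_one]
    have := sum_range_sub (fun k : ℕ => f (a + (k : ℝ) * h)) d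
    simp only [Nat.cast_succ, Nat.cast_zero, zero_mul, add_zero] at this
    simp only [u, this]
    rw [mul_comm]; ring_nf
  have hclose : ∀ y z, y ∈ Set.Icc a b → |z - y| ≤ h → |f z - f y| ≤ ε / 4 := fun y z hy hz => by
    have hz' := abs_le.1 hz
    refine le_of_lt ?_
    rw [← Real.dist_eq]
    exact huc z ⟨by linarith [hy.1], by linarith [hy.2]⟩ y ⟨by linarith [hy.1], by linarith [hy.2]⟩
      (by rw [Real.dist_eq]; exact lt_of_le_of_lt hz hhη)
  -- the rounded law
  set st : ℝ → ℝ := fun x => f a + ∑ k ∈ range n, (Set.Ioi (a + (k : ℝ) * h)).indicator (fun _ => u k) x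
  have ist : Integrable st μ := (integrable_const _).fun_add
    (integrable_finsetSum _ fun k _ => (integrable_const _).indicator measurableSet_Ioi)
  have iF : Integrable f μ :=
    Integrable.of_bound hf.aestronglyMeasurable B (ae_of_all _ fun x => by rw [Real.norm_eq_abs]; exact hB x)
  have hst : ∀ x ∈ Set.Icc a b, |st x - f x| ≤ ε / 4 := fun x hx => by
    have hPdown : ∀ k l : ℕ, k ≤ l → l < n → a + (l : ℝ) * h < x → a + (k : ℝ) * h < x := fun k l hkl _ hl => by
      have : (k : ℝ) * h ≤ l * h := mul_le_mul_of_nonneg_right (by exact_mod_cast hkl) hh.le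
      linarith
    have e : st x = f (a + h * ∑ k ∈ range n, (if a + (k : ℝ) * h < x then (1 : ℝ) else 0)) := by
      rw [htel _ hPdown]
      simp only [st, Set.indicator_apply, Set.mem_Ioi]
    rw [e]
    exact hclose x _ hx (step_close_aux hh.le hx.1 (hx.2.trans hn) _ hPdown (fun k _ hk => hk.le)
      fun k _ hk => not_lt.1 hk)
  have hmean : |∫ x, st x ∂μ - ∫ x, f x ∂μ| ≤ ε / 4 := by
    rw [← integral_sub ist iF, ← Real.norm_eq_abs]
    exact (norm_integral_le_of_norm_le_const (C := ε / 4) (hμ.mono fun x hx => by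
      rw [Real.norm_eq_abs]; exact hst x hx)).trans_eq (by simp)
  have hval : ∫ x, st x ∂μ = f a + ∑ k ∈ range n, μ.real (Set.Ioi (a + (k : ℝ) * h)) * u k := by
    simp only [st]
    rw [integral_add (integrable_const _) (integrable_finsetSum _ fun k _ =>
      (integrable_const _).indicator measurableSet_Ioi),
      integral_finsetSum _ fun k _ => (integrable_const _).indicator measurableSet_Ioi]
    simp [integral_indicator_const _ measurableSet_Ioi]
  have hlim : Tendsto (fun N : ℕ => f a + ∑ k ∈ range n, (above μ N (a + k * h) : ℝ) / N * u k) atTop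
      (𝓝 (∫ x, st x ∂μ)) := by
    rw [hval]
    refine (tendsto_finsetSum _ fun k _ => Tendsto.mul_const _ ?_).const_add _
    exact ((tendsto_nat_floor_mul_div_atTop measureReal_nonneg).comp tendsto_natCast_atTop_atTop)
  filter_upwards [eventually_gt_atTop 0,
    hlim.eventually (Metric.ball_mem_nhds _ (show 0 < ε / 4 by positivity))] with N hN hball
  have hN' : (0 : ℝ) < N := by exact_mod_cast hN
  simp only [Metric.mem_ball, Real.dist_eq] at hball
  have hsum : (∑ j, f (stepSpec μ a h n N j)) / N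
      = f a + ∑ k ∈ range n, (above μ N (a + k * h) : ℝ) / N * u k := by
    have e : ∀ j : Fin N, f (stepSpec μ a h n N j)
        = f a + ∑ k ∈ range n, (if (j : ℕ) < above μ N (a + k * h) then u k else 0) := fun j =>
      htel _ fun k l hkl _ hl => lt_of_lt_of_le hl (above_anti N (by
        have : (k : ℝ) * h ≤ l * h := mul_le_mul_of_nonneg_right (by exact_mod_cast hkl) hh.le
        linarith))
    simp only [e, sum_add_distrib, sum_const, card_univ, Fintype.card_fin, nsmul_eq_mul]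
    rw [Finset.sum_comm, add_div, mul_div_cancel_left₀ _ hN'.ne', sum_div]
    refine congrArg _ (sum_congr rfl fun k _ => ?_)
    rw [← sum_filter, sum_const, nsmul_eq_mul,
      Fin.card_filter_val_lt, min_eq_right (above_le N _)]
    ring
  have h1 : |(∑ j, f (refSpec μ N j)) / N - (∑ j, f (stepSpec μ a h n N j)) / N| ≤ ε / 4 := by
    rw [← sub_div, ← sum_sub_distrib, abs_div, abs_of_pos hN', div_le_iff₀ hN']
    refine (abs_sum_le_sum_abs _ _).trans ((sum_le_sum (g := fun _ => ε / 4) fun j _ => ?_).trans_eq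
      (by simp [mul_comm]))
    rw [abs_sub_comm]
    exact hclose _ _ (refSpec_spec hμ j).1 (stepSpec_close hμ hh.le hn j)
  rw [hsum] at h1
  rw [Real.dist_eq]
  have := abs_le.1 h1
  have := abs_le.1 hmean
  have := abs_lt.1 hball
  rw [abs_lt]
  constructor <;> linarith

theorem refSpec_admissible (hμ : ∀ᵐ x ∂μ, x ∈ Set.Icc a b) : Spec μ b (-a) (refSpec μ) :=
  ⟨refSpec_empTo hμ, fun η hη => Eventually.of_forall fun N j =>
      le_trans (refSpec_spec hμ j).1.2 (by linarith),
    Eventually.of_forall fun N j => by rw [neg_neg]; exact (refSpec_spec hμ j).1.1⟩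

end

end Vale.Agent.P166.Nested
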