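import Vale.Agent.P166.Nested.Defs
import Vale.Agent.P166.Nested.Gauss

/-!
The nested coupling as a Gaussian integral over vector spins.
-/

open MeasureTheory ProbabilityTheory Filter Topology Matrix Finset

namespace Vale.Agent.P166.Nested

open Vale.Agent.P166

variable {N K : ℕ}

/-- Partition function of the Gaussian vector spins, site potential `f`. -/
noncomputable def zf (τ : ℝ) (f : (Fin K → ℝ) → ℝ) (m : Fin K → ℕ) (g : Fin (N * N) → ℝ) : ℝ :=
  ∫ ω, Real.exp (∑ i, f fun k => (cols (m k) g *ᵥ (√τ • ω k)) i) ∂Measure.pi fun _ : Fin K => gs N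

/-- The potential of the nested model. -/
noncomputable def pot (c : Fin K → ℝ) (y : Fin K → ℝ) : ℝ :=
  Real.log (Real.cosh (∑ k, c k * y k)) - ∑ k, c k * y k ^ 2 / 2

theorem qs_sum {n : ℕ} (A : Fin n → Matrix (Fin N) (Fin N) ℝ) (σ : Fin N → Bool) :
    qs (∑ k, A k) σ = ∑ k, qs (A k) σ := by
  simp only [qs, Matrix.sum_mulVec, dotProduct_sum]

theorem qs_smul (c : ℝ) (A : Matrix (Fin N) (Fin N) ℝ) (σ : Fin N → Bool) :
    qs (c • A) σ = c * qs A σ := by
  simp only [qs, Matrix.smul_mulVec, dotProduct_smul, smul_eq_mul]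

theorem mpr_shift (hN : 0 < N) (t : ℝ) (A : Matrix (Fin N) (Fin N) ℝ) :
    mpr (t • 1 + A) = t / 2 + mpr A := by
  have hN' : (N : ℝ) ≠ 0 := by exact_mod_cast hN.ne'
  have e : ∀ σ, qs (t • 1 + A) σ = t * N + qs A σ := fun σ => by
    have : (fun i => spin (σ i)) ⬝ᵥ (fun i => spin (σ i)) = (N : ℝ) := by
      have h1 : ∀ b, spin b * spin b = 1 := fun b => by cases b <;> simp [spin]
      simp [dotProduct, h1]
    simp only [qs, Matrix.add_mulVec, dotProduct_add, Matrix.smul_mulVec, Matrix.one_mulVec,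
      dotProduct_smul, this, smul_eq_mul]
  have hs : (0 : ℝ) < ∑ σ : Fin N → Bool, Real.exp (1 / 2 * qs A σ) :=
    Finset.sum_pos (fun σ _ => Real.exp_pos _) univ_nonempty
  simp only [mpr, e, mul_add, Real.exp_add, ← Finset.mul_sum]
  rw [mul_left_comm ((2 : ℝ) ^ N)⁻¹, Real.log_mul (Real.exp_pos _).ne' (by positivity), Real.log_exp]
  field_simp

theorem cosh_prod (h : Fin N → ℝ) :
    ∏ i, Real.cosh (h i) = ((2 : ℝ) ^ N)⁻¹ * ∑ σ : Fin N → Bool, Real.exp (∑ i, spin (σ i) * h i) := by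
  have e : ∀ x, Real.cosh x = 2⁻¹ * ∑ b : Bool, Real.exp (spin b * x) := fun x => by
    rw [Real.cosh_eq]; simp [spin]; ring
  simp only [e, Finset.prod_mul_distrib, Finset.prod_const, Finset.card_univ, Fintype.card_fin,
    Fintype.prod_sum, inv_pow, Real.exp_sum]

theorem gram_cols_psd (m : ℕ) (g : Fin (N * N) → ℝ) (v : Fin N → ℝ) :
    0 ≤ v ⬝ᵥ ((cols m g)ᵀ * cols m g) *ᵥ v := by
  rw [← Matrix.mulVec_mulVec, Matrix.dotProduct_mulVec, Matrix.vecMul_transpose, dotProduct]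
  exact Finset.sum_nonneg fun i _ => mul_self_nonneg _

/-- One block of spins. -/
theorem block {c τ : ℝ} (hc : 0 < c) (hτ : 0 < τ) (m : ℕ) (g : Fin (N * N) → ℝ) :
    ∃ D : ℝ, 0 < D ∧ ∀ s : Fin N → ℝ,
      Integrable (fun ω => Real.exp (∑ i, (s i * (c * (cols m g *ᵥ (√τ • ω)) i)
        - c * (cols m g *ᵥ (√τ • ω)) i ^ 2 / 2))) (gs N) ∧
      ∫ ω, Real.exp (∑ i, (s i * (c * (cols m g *ᵥ (√τ • ω)) i)
        - c * (cols m g *ᵥ (√τ • ω)) i ^ 2 / 2)) ∂gs N
        = D * Real.exp (c / 2 * (s ⬝ᵥ pdel (1 / (c * τ)) m g *ᵥ s)) := by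
  set X := cols m g
  set A : Matrix (Fin N) (Fin N) ℝ := (c * τ) • (Xᵀ * X)
  have hA : Aᵀ = A := by simp [A, Matrix.transpose_mul]
  have hpsd : ∀ v : Fin N → ℝ, 0 ≤ v ⬝ᵥ A *ᵥ v := fun v => by
    simp only [A, Matrix.smul_mulVec, dotProduct_smul, smul_eq_mul]
    exact mul_nonneg (by positivity) (gram_cols_psd m g v)
  obtain ⟨D, hD, h⟩ := integral_exp_quad A hA hpsd
  refine ⟨D, hD, fun s => ?_⟩
  have e : ∀ ω : Fin N → ℝ, ∑ i, (s i * (c * (X *ᵥ (√τ • ω)) i) - c * (X *ᵥ (√τ • ω)) i ^ 2 / 2)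
      = ((c * √τ) • (Xᵀ *ᵥ s)) ⬝ᵥ ω - ω ⬝ᵥ A *ᵥ ω / 2 := fun ω => by
    have e1 : ((c * √τ) • (Xᵀ *ᵥ s)) ⬝ᵥ ω = c * √τ * (s ⬝ᵥ X *ᵥ ω) := by
      rw [smul_dotProduct, Matrix.dotProduct_mulVec, ← Matrix.mulVec_transpose, smul_eq_mul]
    have e2 : ω ⬝ᵥ A *ᵥ ω = c * τ * ∑ i, (X *ᵥ ω) i ^ 2 := by
      simp only [A, Matrix.smul_mulVec, dotProduct_smul, smul_eq_mul]
      rw [← Matrix.mulVec_mulVec, Matrix.dotProduct_mulVec, Matrix.vecMul_transpose]
      simp [dotProduct, pow_two]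
    rw [e1, e2, dotProduct]
    simp only [Matrix.mulVec_smul, Pi.smul_apply, smul_eq_mul, mul_pow, Real.sq_sqrt hτ.le,
      Finset.mul_sum, Finset.sum_div, ← Finset.sum_sub_distrib]
    exact Finset.sum_congr rfl fun i _ => by ring
  obtain ⟨hi, hv⟩ := h ((c * √τ) • (Xᵀ *ᵥ s))
  simp only [e]
  refine ⟨hi, hv.trans ?_⟩
  congr 2
  set δ := 1 / (c * τ) with hδ
  have hδ0 : 0 < δ := by positivity
  have hinv : (1 + A)⁻¹ = δ • (Xᵀ * X + δ • 1)⁻¹ := by
    have hu : IsUnit (Xᵀ * X + δ • 1 : Matrix (Fin N) (Fin N) ℝ).det := by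
      refine (Matrix.PosDef.det_pos (Matrix.PosDef.of_dotProduct_mulVec_pos ?_ fun v hv => ?_)).ne'.isUnit
      · simp [Matrix.IsHermitian, Matrix.conjTranspose_eq_transpose_of_trivial, Matrix.transpose_mul]
      · simp only [star_trivial, Matrix.add_mulVec, dotProduct_add, Matrix.smul_mulVec, Matrix.one_mulVec,
          dotProduct_smul, smul_eq_mul]
        refine add_pos_of_nonneg_of_pos (gram_cols_psd m g v) (mul_pos hδ0 ?_)
        obtain ⟨j, hj⟩ := Function.ne_iff.1 hv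
        exact Finset.sum_pos' (fun i _ => mul_self_nonneg _) ⟨j, mem_univ j, mul_self_pos.2 hj⟩
    refine Matrix.inv_eq_right_inv ?_
    have e1 : 1 + A = (c * τ) • (Xᵀ * X + δ • 1) := by
      rw [smul_add, smul_smul, hδ, mul_one_div_cancel (by positivity), one_smul, add_comm]
    rw [e1, smul_mul_assoc, mul_smul_comm, smul_smul, Matrix.mul_nonsing_inv _ hu, hδ,
      mul_one_div_cancel (by positivity), one_smul]
  rw [hinv, pdel, ← Matrix.mulVec_mulVec, ← Matrix.mulVec_mulVec, Matrix.dotProduct_mulVec s (cols m g),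
    ← Matrix.mulVec_transpose]
  simp only [Matrix.smul_mulVec, Matrix.mulVec_smul, smul_dotProduct, dotProduct_smul, smul_eq_mul]
  rw [hδ]
  field_simp
  rw [Real.sq_sqrt hτ.le]

/-- The nested coupling's pressure is a difference of Gaussian spin free energies. -/
theorem mpr_nest (hN : 0 < N) {τ : ℝ} (hτ : 0 < τ) (t0 : ℝ) {c : Fin K → ℝ} (hc : ∀ k, 0 < c k)
    (m : Fin K → ℕ) (g : Fin (N * N) → ℝ) :
    mpr (nest t0 c (fun k => 1 / (c k * τ)) m g) = t0 / 2 + 1 / (N : ℝ) * (Real.log (zf τ (pot c) m g)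
      - ∑ k, Real.log (zf (K := 1) τ (fun y => -(c k * y 0 ^ 2 / 2)) (fun _ => m k) g)) := by
  choose D hD hb using fun k => block (hc k) hτ (m k) g
  have hquad : ∀ k, zf (K := 1) τ (fun y => -(c k * y 0 ^ 2 / 2)) (fun _ => m k) g = D k := fun k => by
    have h := (hb k 0).2
    simp only [Pi.zero_apply, zero_mul, zero_sub, Matrix.mulVec_zero, dotProduct_zero, mul_zero,
      Real.exp_zero, mul_one] at h
    rw [zf, ← h]
    exact (measurePreserving_funUnique (gs N) (Fin 1)).integral_comp'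
      (fun ω => Real.exp (∑ i, -(c k * (cols (m k) g *ᵥ (√τ • ω)) i ^ 2 / 2)))
  have hpot : zf τ (pot c) m g
      = (∏ k, D k) * (((2 : ℝ) ^ N)⁻¹ * ∑ σ : Fin N → Bool,
          Real.exp (1 / 2 * qs (∑ k, c k • pdel (1 / (c k * τ)) (m k) g) σ)) := by
    have e : ∀ ω : Fin K → Fin N → ℝ,
        Real.exp (∑ i, pot c fun k => (cols (m k) g *ᵥ (√τ • ω k)) i)
          = ((2 : ℝ) ^ N)⁻¹ * ∑ σ : Fin N → Bool, ∏ k, Real.exp (∑ i,
            (spin (σ i) * (c k * (cols (m k) g *ᵥ (√τ • ω k)) i)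
              - c k * (cols (m k) g *ᵥ (√τ • ω k)) i ^ 2 / 2)) := fun ω => by
      simp only [pot]
      rw [Finset.sum_sub_distrib, sub_eq_add_neg, Real.exp_add, Real.exp_sum,
        Finset.prod_congr rfl (fun i _ => Real.exp_log (Real.cosh_pos _)), cosh_prod, mul_assoc,
        Finset.sum_mul]
      congr 1
      refine Finset.sum_congr rfl fun σ _ => ?_
      rw [← Real.exp_add, ← Real.exp_sum, ← sub_eq_add_neg, ← Finset.sum_sub_distrib, Finset.sum_comm]
      congr 1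
      refine Finset.sum_congr rfl fun i _ => ?_
      rw [Finset.mul_sum, ← Finset.sum_sub_distrib]
    rw [zf]
    simp only [e]
    have hI : ∀ σ : Fin N → Bool, Integrable (fun ω : Fin K → Fin N → ℝ => ∏ k, Real.exp (∑ i,
        (spin (σ i) * (c k * (cols (m k) g *ᵥ (√τ • ω k)) i)
          - c k * (cols (m k) g *ᵥ (√τ • ω k)) i ^ 2 / 2))) (Measure.pi fun _ : Fin K => gs N) :=
      fun σ => Integrable.fintype_prod fun k => (hb k _).1
    rw [integral_const_mul, integral_finsetSum _ fun σ _ => hI σ, mul_left_comm]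
    congr 1
    rw [Finset.mul_sum]
    refine Finset.sum_congr rfl fun σ _ => ?_
    rw [integral_fintype_prod_eq_prod (𝕜 := ℝ) (E := fun _ : Fin K => Fin N → ℝ) (fun k ω =>
      Real.exp (∑ i : Fin N, (spin (σ i) * (c k * (cols (m k) g *ᵥ (√τ • ω)) i)
        - c k * (cols (m k) g *ᵥ (√τ • ω)) i ^ 2 / 2)))]
    simp only [(hb _ _).2, Finset.prod_mul_distrib, ← Real.exp_sum, qs_sum, qs_smul, Finset.mul_sum]
    congr 2
    exact Finset.sum_congr rfl fun k _ => by simp only [qs]; ring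
  rw [nest, mpr_shift hN]
  congr 1
  simp only [hquad, hpot]
  rw [Real.log_mul (Finset.prod_pos fun k _ => hD k).ne'
    (mul_pos (by positivity) (Finset.sum_pos (fun σ _ => Real.exp_pos _) univ_nonempty)).ne',
    Real.log_prod fun k _ => (hD k).ne', add_sub_cancel_left, mpr]

end Vale.Agent.P166.Nested
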