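import Vale.Agent.P166.Nested.Defs
import Vale.Agent.P166.Nested.Hubbard

/-!
Regularised projections of well conditioned columns are close to orthogonal projections.
-/

open MeasureTheory Filter Topology Matrix Finset

namespace Vale.Agent.P166.Nested

open Vale.Agent.P166

variable {N : ℕ}

/-- The first `m` coordinates. -/
noncomputable def lead (m : ℕ) : Matrix (Fin N) (Fin N) ℝ :=
  diagonal fun b => if (b : ℕ) < m then 1 else 0

theorem dot_gram (X : Matrix (Fin N) (Fin N) ℝ) (v w : Fin N → ℝ) :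
    v ⬝ᵥ (Xᵀ * X) *ᵥ w = (X *ᵥ v) ⬝ᵥ (X *ᵥ w) := by
  rw [← Matrix.mulVec_mulVec, Matrix.dotProduct_mulVec, Matrix.vecMul_transpose]

theorem dot_self_sum (v : Fin N → ℝ) : v ⬝ᵥ v = ∑ i, v i ^ 2 := by
  simp [dotProduct, pow_two]

/-- With `z = (XᵀX+δ)⁻¹Xᵀs`, the regularised form is `s·Xz` and `XᵀXz + δz = Xᵀs`. -/
theorem pdel_form {δ : ℝ} (hδ : 0 < δ) (m : ℕ) (g : Fin (N * N) → ℝ) (s : Fin N → ℝ) :
    ∃ z : Fin N → ℝ, s ⬝ᵥ pdel δ m g *ᵥ s = s ⬝ᵥ cols m g *ᵥ z ∧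
      ((cols m g)ᵀ * cols m g) *ᵥ z + δ • z = (cols m g)ᵀ *ᵥ s := by
  set X := cols m g
  have hu : IsUnit (Xᵀ * X + δ • 1 : Matrix (Fin N) (Fin N) ℝ).det := by
    refine (Matrix.PosDef.det_pos (Matrix.PosDef.of_dotProduct_mulVec_pos ?_ fun v hv => ?_)).ne'.isUnit
    · simp [Matrix.IsHermitian, Matrix.conjTranspose_eq_transpose_of_trivial, Matrix.transpose_mul]
    · simp only [star_trivial, Matrix.add_mulVec, dotProduct_add, Matrix.smul_mulVec, Matrix.one_mulVec,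
        dotProduct_smul, smul_eq_mul]
      refine add_pos_of_nonneg_of_pos (gram_cols_psd m g v) (mul_pos hδ ?_)
      obtain ⟨j, hj⟩ := Function.ne_iff.1 hv
      exact Finset.sum_pos' (fun i _ => mul_self_nonneg _) ⟨j, mem_univ j, mul_self_pos.2 hj⟩
  refine ⟨(Xᵀ * X + δ • 1)⁻¹ *ᵥ (Xᵀ *ᵥ s), ?_, ?_⟩
  · rw [pdel, ← Matrix.mulVec_mulVec, ← Matrix.mulVec_mulVec]
  · rw [show ((Xᵀ * X) *ᵥ ((Xᵀ * X + δ • 1)⁻¹ *ᵥ (Xᵀ *ᵥ s))) + δ • ((Xᵀ * X + δ • 1)⁻¹ *ᵥ (Xᵀ *ᵥ s))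
      = (Xᵀ * X + δ • 1) *ᵥ ((Xᵀ * X + δ • 1)⁻¹ *ᵥ (Xᵀ *ᵥ s)) by
      simp only [Matrix.add_mulVec, Matrix.smul_mulVec, Matrix.one_mulVec],
      Matrix.mulVec_mulVec, Matrix.mul_nonsing_inv _ hu, Matrix.one_mulVec]

theorem pdel_bounds {δ : ℝ} (hδ : 0 < δ) (m : ℕ) (g : Fin (N * N) → ℝ) (s : Fin N → ℝ) :
    0 ≤ s ⬝ᵥ pdel δ m g *ᵥ s ∧ s ⬝ᵥ pdel δ m g *ᵥ s ≤ s ⬝ᵥ s := by
  obtain ⟨z, hz, he⟩ := pdel_form hδ m g s
  have h := congrArg (z ⬝ᵥ ·) he
  simp only [dotProduct_add, dot_gram, dotProduct_smul, smul_eq_mul] at h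
  rw [Matrix.dotProduct_mulVec z, Matrix.vecMul_transpose, dotProduct_comm _ s] at h
  rw [hz]
  set u := cols m g *ᵥ z
  have h1 : 0 ≤ δ * (z ⬝ᵥ z) := mul_nonneg hδ.le (by rw [dot_self_sum]; positivity)
  have h2 : 0 ≤ u ⬝ᵥ u := by rw [dot_self_sum]; positivity
  refine ⟨by linarith, ?_⟩
  have h3 : 0 ≤ (s - u) ⬝ᵥ (s - u) := by rw [dot_self_sum]; positivity
  simp only [sub_dotProduct, dotProduct_sub, dotProduct_comm u s] at h3
  linarith

/-- Triangular orthonormal frame of the columns. -/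
theorem exists_frame (g : Fin (N * N) → ℝ) :
    ∃ O : Matrix (Fin N) (Fin N) ℝ, Oᵀ * O = 1 ∧ O * Oᵀ = 1 ∧
      ∀ m : ℕ, O * lead m * Oᵀ * cols m g = cols m g := by
  have hfr : Module.finrank ℝ (EuclideanSpace ℝ (Fin N)) = Fintype.card (Fin N) := by simp
  set f : Fin N → EuclideanSpace ℝ (Fin N) := fun b => WithLp.toLp 2 fun i => mat g b i / √(N : ℝ)
  set bs := InnerProductSpace.gramSchmidtOrthonormalBasis hfr f
  set O : Matrix (Fin N) (Fin N) ℝ := Matrix.of fun i a => bs a i with hO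
  have hOO : Oᵀ * O = 1 := by
    ext a b
    have := orthonormal_iff_ite.1 bs.orthonormal a b
    simpa [hO, Matrix.mul_apply, Matrix.one_apply, PiLp.inner_apply, mul_comm] using this
  have hOO' : O * Oᵀ = 1 := mul_eq_one_comm.1 hOO
  refine ⟨O, hOO, hOO', fun m => ?_⟩
  have hT : lead m * (Oᵀ * cols m g) = Oᵀ * cols m g := by
    ext a b
    rw [lead, Matrix.diagonal_mul]
    by_cases ha : (a : ℕ) < m
    · simp [ha]
    · rw [if_neg ha, zero_mul]
      simp only [Matrix.mul_apply, Matrix.transpose_apply, cols]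
      by_cases hb : (b : ℕ) < m
      · have hba : b < a := Fin.lt_def.2 (by omega)
        have := InnerProductSpace.gramSchmidtOrthonormalBasis_inv_triangular hfr f hba
        rw [PiLp.inner_apply] at this
        simp only [hb, if_true, hO, Matrix.of_apply]
        refine (Eq.trans ?_ this).symm
        exact Finset.sum_congr rfl fun i _ => by simp [f, bs, mul_comm]
      · simp [hb]
  rw [Matrix.mul_assoc, Matrix.mul_assoc, hT, ← Matrix.mul_assoc, hOO', Matrix.one_mul]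

/-- The algebra behind `proj_err`. -/
theorem err_alg {a δ : ℝ} (ha : 0 < a) (hδ : 0 < δ) {X : Matrix (Fin N) (Fin N) ℝ} {s v w z : Fin N → ℝ}
    (hXw : X *ᵥ w = v) (hXs : Xᵀ *ᵥ s = Xᵀ *ᵥ v) (he : (Xᵀ * X) *ᵥ z + δ • z = Xᵀ *ᵥ s)
    (hsv : s ⬝ᵥ v = v ⬝ᵥ v) (hw : a * (w ⬝ᵥ w) ≤ v ⬝ᵥ v) :
    |s ⬝ᵥ X *ᵥ z - v ⬝ᵥ v| ≤ δ / a * (s ⬝ᵥ s) := by
  have hsz : s ⬝ᵥ X *ᵥ z = v ⬝ᵥ X *ᵥ z := by
    rw [Matrix.dotProduct_mulVec, Matrix.dotProduct_mulVec v, ← Matrix.mulVec_transpose,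
      ← Matrix.mulVec_transpose, hXs]
  have hAe : (Xᵀ * X) *ᵥ z + δ • z = (Xᵀ * X) *ᵥ w := by
    rw [he, hXs, ← hXw, Matrix.mulVec_mulVec]
  have h1 := congrArg (w ⬝ᵥ ·) hAe
  have h2 := congrArg (z ⬝ᵥ ·) hAe
  simp only [dotProduct_add, dot_gram, dotProduct_smul, smul_eq_mul, hXw] at h1 h2
  rw [dotProduct_comm (X *ᵥ z) v] at h2
  rw [hsz]
  set u := X *ᵥ z
  have nn : ∀ x : Fin N → ℝ, 0 ≤ x ⬝ᵥ x := fun x => by rw [dot_self_sum]; positivity
  have hlt := nn (v - u)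
  have hwz := mul_nonneg hδ.le (nn (w - z))
  have hsv2 := nn (s - v)
  simp only [sub_dotProduct, dotProduct_sub, dotProduct_comm u v, dotProduct_comm z w,
    dotProduct_comm v s] at hlt hwz hsv2
  have hww : δ * (w ⬝ᵥ w) ≤ δ / a * (s ⬝ᵥ s) := by
    rw [div_mul_eq_mul_div, le_div_iff₀ ha, mul_assoc]
    refine mul_le_mul_of_nonneg_left ?_ hδ.le
    linarith
  rw [abs_le]
  constructor <;> nlinarith [nn u, mul_nonneg hδ.le (nn z), mul_nonneg hδ.le (nn w)]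

/-- Regularised and exact projections nearly agree on well conditioned columns. -/
theorem proj_err {a K δ : ℝ} {m : ℕ} {g : Fin (N * N) → ℝ} (ha : 0 < a) (hg : WellCond a K m g)
    (hδ : 0 < δ) (hm : m ≤ N) {O : Matrix (Fin N) (Fin N) ℝ} (hO : Oᵀ * O = 1) (hO' : O * Oᵀ = 1)
    (hcol : O * lead m * Oᵀ * cols m g = cols m g) (s : Fin N → ℝ) :
    |s ⬝ᵥ pdel δ m g *ᵥ s - s ⬝ᵥ (O * lead m * Oᵀ) *ᵥ s| ≤ δ / a * (s ⬝ᵥ s) := by
  set X := cols m g
  set Q := O * lead m * Oᵀ with hQ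
  have hlead : (lead m : Matrix (Fin N) (Fin N) ℝ) * lead m = lead m := by
    simp only [lead, Matrix.diagonal_mul_diagonal]
    congr 1; funext b; split_ifs <;> simp
  have hQT : Qᵀ = Q := by
    simp [hQ, lead, Matrix.transpose_mul, Matrix.mul_assoc]
  have hQQ : Q * Q = Q := by
    rw [hQ]
    calc O * lead m * Oᵀ * (O * lead m * Oᵀ) = O * (lead m * (Oᵀ * O) * lead m) * Oᵀ := by
          simp only [Matrix.mul_assoc]
      _ = _ := by rw [hO, Matrix.mul_one, hlead]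
  set v := Q *ᵥ s
  -- the vector `v` lies in the column space
  classical
  set ext : (Fin m → ℝ) → Fin N → ℝ := fun u b => if h : (b : ℕ) < m then u ⟨b, h⟩ else 0 with hext
  let L : (Fin m → ℝ) →ₗ[ℝ] (Fin m → ℝ) :=
    { toFun := fun u a => (Oᵀ *ᵥ (X *ᵥ ext u)) (Fin.castLE hm a)
      map_add' := fun u u' => by
        have : ext (u + u') = ext u + ext u' := by
          funext b; simp only [hext, Pi.add_apply]; split_ifs <;> simp
        funext a; simp [this, Matrix.mulVec_add]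
      map_smul' := fun c u => by
        have : ext (c • u) = c • ext u := by
          funext b; simp only [hext, Pi.smul_apply]; split_ifs <;> simp
        funext a; simp [this, Matrix.mulVec_smul] }
  have hhigh : ∀ (u : Fin m → ℝ) (b : Fin N), ¬(b : ℕ) < m → (Oᵀ *ᵥ (X *ᵥ ext u)) b = 0 := fun u b hb => by
    have e : Oᵀ *ᵥ (X *ᵥ ext u) = lead m *ᵥ (Oᵀ *ᵥ (X *ᵥ ext u)) := by
      conv_lhs => rw [← hcol]
      simp only [hQ, Matrix.mulVec_mulVec, ← Matrix.mul_assoc, hO, Matrix.one_mul]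
    rw [e, lead, Matrix.mulVec_diagonal, if_neg hb, zero_mul]
  have hinj : Function.Injective L := by
    refine (injective_iff_map_eq_zero L).2 fun u hu => ?_
    have h0 : Oᵀ *ᵥ (X *ᵥ ext u) = 0 := funext fun b => by
      by_cases hb : (b : ℕ) < m
      · exact congrFun hu ⟨b, hb⟩
      · exact hhigh u b hb
    have hx0 : X *ᵥ ext u = 0 := by
      have := congrArg (O *ᵥ ·) h0
      simpa [Matrix.mulVec_mulVec, ← Matrix.mul_assoc, hO'] using this
    have hlo := (hg (ext u) fun b hb => by simp [hext, hb]).1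
    simp only [show (cols m g *ᵥ ext u) = 0 from hx0, Pi.zero_apply, ne_eq, OfNat.ofNat_ne_zero,
      not_false_eq_true, zero_pow, Finset.sum_const_zero] at hlo
    have hz := (Finset.sum_eq_zero_iff_of_nonneg fun b _ => sq_nonneg (ext u b)).1
      (le_antisymm (nonpos_of_mul_nonpos_right hlo ha) (Finset.sum_nonneg fun b _ => sq_nonneg _))
    funext a
    simpa [hext] using hz (Fin.castLE hm a) (mem_univ _)
  obtain ⟨u, hu⟩ := (LinearMap.injective_iff_surjective.1 hinj) fun a => (Oᵀ *ᵥ v) (Fin.castLE hm a)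
  set w := ext u
  have hXw : X *ᵥ w = v := by
    have h0 : Oᵀ *ᵥ (X *ᵥ w) = Oᵀ *ᵥ v := funext fun b => by
      by_cases hb : (b : ℕ) < m
      · exact congrFun hu ⟨b, hb⟩
      · rw [hhigh u b hb]
        simp only [v, hQ, Matrix.mulVec_mulVec, ← Matrix.mul_assoc, hO, Matrix.one_mul]
        rw [← Matrix.mulVec_mulVec, lead, Matrix.mulVec_diagonal, if_neg hb, zero_mul]
    have := congrArg (O *ᵥ ·) h0
    simpa [Matrix.mulVec_mulVec, ← Matrix.mul_assoc, hO'] using this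
  have hw := (hg w fun b hb => by simp [w, hext, hb]).1
  rw [← dot_self_sum, ← dot_self_sum, hXw] at hw
  -- the estimate
  obtain ⟨z, hz, he⟩ := pdel_form hδ m g s
  have hXs : Xᵀ *ᵥ s = Xᵀ *ᵥ v := by
    conv_lhs => rw [← hcol]
    rw [Matrix.transpose_mul, hQT, ← Matrix.mulVec_mulVec]
  have hsv : s ⬝ᵥ Q *ᵥ s = v ⬝ᵥ v := by
    conv_lhs => rw [← hQQ, ← Matrix.mulVec_mulVec, Matrix.dotProduct_mulVec, ← Matrix.mulVec_transpose, hQT]
  rw [hz, hsv]
  exact err_alg ha hδ hXw hXs he hsv hw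

end Vale.Agent.P166.Nested
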